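import Mathlib

/-!
Fourier sums on circles over a field with `p` elements, without the Weil bound: the fourth moment
over all frequencies and the invariance under rotations.
-/

open Finset

namespace Vale.Agent.P042.Loc

noncomputable section

variable {p : ℕ} [Fact p.Prime]

/-- The circle `x² + y² = R`. -/
def circ (R : ZMod p) : Finset (ZMod p × ZMod p) := univ.filter fun v => v.1 ^ 2 + v.2 ^ 2 = R

theorem mem_circ {R : ZMod p} {v : ZMod p × ZMod p} : v ∈ circ R ↔ v.1 ^ 2 + v.2 ^ 2 = R := by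
  simp [circ]

/-- The Fourier sum of a set of points of the plane. -/
def fsum (S : Finset (ZMod p × ZMod p)) (ξ : ZMod p × ZMod p) : ℂ :=
  ∑ v ∈ S, ZMod.stdAddChar (ξ.1 * v.1 + ξ.2 * v.2)

theorem sum_char_plane (v : ZMod p × ZMod p) :
    ∑ ξ : ZMod p × ZMod p, ZMod.stdAddChar (ξ.1 * v.1 + ξ.2 * v.2) =
      if v = 0 then ((p : ℂ) ^ 2) else 0 := by
  have h1 : ∀ b : ZMod p,
      ∑ x : ZMod p, ZMod.stdAddChar (x * b) = if b = 0 then (p : ℂ) else 0 := by
    intro b
    have h := AddChar.sum_mulShift b (ZMod.isPrimitive_stdAddChar p)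
    rw [ZMod.card] at h
    rw [h]
    split <;> simp
  rw [Fintype.sum_prod_type]
  simp only [AddChar.map_add_eq_mul, ← Finset.mul_sum, ← Finset.sum_mul, h1]
  obtain ⟨a, b⟩ := v
  by_cases ha : a = 0 <;> by_cases hb : b = 0 <;> simp [ha, hb, pow_two, Prod.ext_iff]

/-- The fourth moment counts additive quadruples. -/
theorem moment_four (S : Finset (ZMod p × ZMod p)) :
    ∑ ξ : ZMod p × ZMod p, ‖fsum S ξ‖ ^ 4 =
      (p : ℝ) ^ 2 * #(((S ×ˢ S) ×ˢ (S ×ˢ S)).filter fun w => w.1.1 + w.1.2 = w.2.1 + w.2.2) := by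
  have h : ∀ ξ : ZMod p × ZMod p, ((‖fsum S ξ‖ ^ 4 : ℝ) : ℂ) =
      ∑ w ∈ (S ×ˢ S) ×ˢ (S ×ˢ S), ZMod.stdAddChar
        (ξ.1 * (w.1.1 + w.1.2 - (w.2.1 + w.2.2)).1 + ξ.2 * (w.1.1 + w.1.2 - (w.2.1 + w.2.2)).2) := by
    intro ξ
    have h1 : ((‖fsum S ξ‖ ^ 4 : ℝ) : ℂ) =
        (fsum S ξ * fsum S ξ) * (starRingEnd ℂ) (fsum S ξ * fsum S ξ) := by
      rw [Complex.mul_conj, Complex.normSq_eq_norm_sq, norm_mul]
      push_cast
      ring
    rw [h1, fsum, Finset.sum_mul_sum, ← Finset.sum_product', map_sum, Finset.sum_mul_sum,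
      ← Finset.sum_product']
    refine Finset.sum_congr rfl fun w _ => ?_
    rw [map_mul, ← AddChar.map_neg_eq_conj, ← AddChar.map_neg_eq_conj]
    simp only [← AddChar.map_add_eq_mul]
    congr 1
    simp only [Prod.fst_add, Prod.fst_sub, Prod.snd_add, Prod.snd_sub]
    ring
  apply Complex.ofReal_injective
  rw [Complex.ofReal_sum, Finset.sum_congr rfl fun ξ _ => h ξ, Finset.sum_comm]
  simp only [sum_char_plane, sub_eq_zero]
  rw [← Finset.sum_filter, Finset.sum_const, nsmul_eq_mul]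
  push_cast
  ring

theorem card_sq_le_two (a : ZMod p) (s : Finset (ZMod p)) (hs : ∀ x ∈ s, x ^ 2 = a) : #s ≤ 2 := by
  rcases s.eq_empty_or_nonempty with rfl | ⟨w, hw⟩
  · simp
  · refine (Finset.card_le_card (t := {w, -w}) fun x hx => ?_).trans Finset.card_le_two
    have hx2 : x ^ 2 = w ^ 2 := by rw [hs x hx, hs w hw]
    rcases sq_eq_sq_iff_eq_or_eq_neg.1 hx2 with h | h <;> simp [h]

theorem card_circ_le (R : ZMod p) : #(circ R) ≤ 2 * p := by
  have h := Finset.card_le_mul_card_image (f := Prod.fst) (circ R) 2 fun a _ => by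
    refine le_of_eq_of_le (Finset.card_image_of_injOn (f := Prod.snd) ?_).symm
      (card_sq_le_two (R - a ^ 2) _ fun y hy => ?_)
    · intro v hv w hw hvw
      rw [Finset.mem_coe, Finset.mem_filter] at hv hw
      exact Prod.ext (hv.2.trans hw.2.symm) hvw
    · simp only [Finset.mem_image, Finset.mem_filter, mem_circ] at hy
      obtain ⟨v, ⟨hv, rfl⟩, rfl⟩ := hy
      rw [← hv]; ring
  refine h.trans (Nat.mul_le_mul_left 2 ?_)
  exact (Finset.card_le_univ _).trans (ZMod.card p).le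

/-- A nonzero vector is a sum of two points of the circle in at most two ways. -/
theorem card_rep_le (h2 : (2 : ZMod p) ≠ 0) (R : ZMod p) (hR : R ≠ 0) (s : ZMod p × ZMod p)
    (hs : s ≠ 0) : #((circ R).filter fun v => s - v ∈ circ R) ≤ 2 := by
  have hu : ∀ v : ZMod p × ZMod p, v ∈ circ R → s - v ∈ circ R →
      2 * (s.1 * v.1 + s.2 * v.2) = s.1 ^ 2 + s.2 ^ 2 := by
    intro v hv hsv
    simp only [mem_circ, Prod.fst_sub, Prod.snd_sub] at hv hsv
    linear_combination hv - hsv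
  by_cases hn : s.1 ^ 2 + s.2 ^ 2 = 0
  · refine (Finset.card_eq_zero.2 (Finset.filter_eq_empty_iff.2 fun v hv hsv => ?_)).trans_le
      (Nat.zero_le _)
    have hu0 : s.1 * v.1 + s.2 * v.2 = 0 :=
      (mul_eq_zero.1 ((hu v hv hsv).trans hn)).resolve_left h2
    rw [mem_circ] at hv
    have hw : -s.2 * v.1 + s.1 * v.2 = 0 := by
      have : (-s.2 * v.1 + s.1 * v.2) ^ 2 = 0 := by
        linear_combination (v.1 ^ 2 + v.2 ^ 2) * hn - (s.1 * v.1 + s.2 * v.2) * hu0
      exact (pow_eq_zero_iff two_ne_zero).1 this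
    by_cases h1 : s.1 = 0
    · have h3 : s.2 ^ 2 = 0 := by rw [h1] at hn; linear_combination hn
      exact hs (Prod.ext h1 ((pow_eq_zero_iff two_ne_zero).1 h3))
    · have : s.1 ^ 2 * R = 0 := by
        linear_combination -(s.1 ^ 2) * hv + v.2 ^ 2 * hn + (s.1 * v.1 - s.2 * v.2) * hu0
      exact hR ((mul_eq_zero.1 this).resolve_left (pow_ne_zero 2 h1))
  · refine le_of_eq_of_le (Finset.card_image_of_injOn
      (f := fun v : ZMod p × ZMod p => -s.2 * v.1 + s.1 * v.2) ?_).symm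
      (card_sq_le_two ((s.1 ^ 2 + s.2 ^ 2) * R - ((s.1 ^ 2 + s.2 ^ 2) / 2) ^ 2) _ fun y hy => ?_)
    · intro v hv w hw hvw
      rw [Finset.mem_coe, Finset.mem_filter] at hv hw
      have h3 : s.1 * v.1 + s.2 * v.2 = s.1 * w.1 + s.2 * w.2 :=
        mul_left_cancel₀ h2 ((hu v hv.1 hv.2).trans (hu w hw.1 hw.2).symm)
      simp only at hvw
      refine Prod.ext (mul_left_cancel₀ hn ?_) (mul_left_cancel₀ hn ?_)
      · linear_combination s.1 * h3 - s.2 * hvw
      · linear_combination s.2 * h3 + s.1 * hvw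
    · simp only [Finset.mem_image, Finset.mem_filter] at hy
      obtain ⟨v, ⟨hv, hsv⟩, rfl⟩ := hy
      rw [← hu v hv hsv, mul_div_cancel_left₀ _ h2, hu v hv hsv]
      rw [mem_circ] at hv
      linear_combination (s.1 ^ 2 + s.2 ^ 2) * hv

/-- The additive energy of a subset of the circle. -/
theorem energy_le (h2 : (2 : ZMod p) ≠ 0) (R : ZMod p) (hR : R ≠ 0)
    (S : Finset (ZMod p × ZMod p)) (hS : S ⊆ circ R) :
    #(((S ×ˢ S) ×ˢ (S ×ˢ S)).filter fun w => w.1.1 + w.1.2 = w.2.1 + w.2.2) ≤ 12 * p ^ 2 := by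
  have hN : #S ≤ 2 * p := (Finset.card_le_card hS).trans (card_circ_le R)
  rw [Finset.card_filter, Finset.sum_product]
  have h1 : ∀ q ∈ S ×ˢ S,
      (∑ q' ∈ S ×ˢ S, if q.1 + q.2 = q'.1 + q'.2 then 1 else 0) ≤
        2 + if q.2 = -q.1 then #S else 0 := by
    intro q _
    rw [← Finset.card_filter]
    have hinj : ∀ T : Finset (ZMod p × ZMod p), (∀ q' ∈ S ×ˢ S, q.1 + q.2 = q'.1 + q'.2 → q'.1 ∈ T) →
        #((S ×ˢ S).filter fun q' => q.1 + q.2 = q'.1 + q'.2) ≤ #T := by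
      intro T hT
      refine Finset.card_le_card_of_injOn Prod.fst (fun q' hq' => ?_) fun a ha b hb hab => ?_
      · rw [Finset.mem_coe, Finset.mem_filter] at hq'
        exact hT q' hq'.1 hq'.2
      · rw [Finset.mem_coe, Finset.mem_filter] at ha hb
        have h := ha.2.symm.trans hb.2
        rw [hab] at h
        exact Prod.ext hab (add_left_cancel h)
    by_cases hz : q.2 = -q.1
    · rw [if_pos hz]
      exact (hinj S fun q' hq' _ => (Finset.mem_product.1 hq').1).trans (Nat.le_add_left _ _)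
    · rw [if_neg hz, add_zero]
      refine (hinj ((circ R).filter fun v => q.1 + q.2 - v ∈ circ R) fun q' hq' he => ?_).trans
        (card_rep_le h2 R hR _ fun h => hz (by linear_combination h))
      rw [Finset.mem_product] at hq'
      rw [Finset.mem_filter, he, add_sub_cancel_left]
      exact ⟨hS hq'.1, hS hq'.2⟩
  refine (Finset.sum_le_sum h1).trans ?_
  rw [Finset.sum_add_distrib, Finset.sum_const, smul_eq_mul, Finset.card_product,
    Finset.sum_product]
  have h3 : ∀ a ∈ S, (∑ b ∈ S, if b = -a then #S else 0) ≤ #S := by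
    intro a _
    rw [Finset.sum_ite_eq']
    split <;> simp
  simp only
  have h4 := Finset.sum_le_sum h3
  rw [Finset.sum_const, smul_eq_mul] at h4
  have := Nat.mul_le_mul hN hN
  nlinarith

/-- A frequency with a large orbit of equal absolute values has small Fourier sum. -/
theorem fsum_le (h2 : (2 : ZMod p) ≠ 0) (R : ZMod p) (hR : R ≠ 0)
    (S : Finset (ZMod p × ZMod p)) (hS : S ⊆ circ R) (O : Finset (ZMod p × ZMod p)) (z : ℂ)
    (hO : ∀ ξ ∈ O, ‖fsum S ξ‖ = ‖z‖) :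
    (#O : ℝ) * ‖z‖ ^ 4 ≤ 12 * (p : ℝ) ^ 4 := by
  have h := Finset.sum_le_sum_of_subset_of_nonneg (Finset.subset_univ O)
    (f := fun ξ => ‖fsum S ξ‖ ^ 4) (fun ξ _ _ => by positivity)
  rw [Finset.sum_congr rfl fun ξ hξ => by rw [hO ξ hξ], Finset.sum_const, nsmul_eq_mul,
    moment_four] at h
  have he : ((#(((S ×ˢ S) ×ˢ (S ×ˢ S)).filter fun w => w.1.1 + w.1.2 = w.2.1 + w.2.2) : ℕ) : ℝ) ≤
      12 * (p : ℝ) ^ 2 := by exact_mod_cast energy_le h2 R hR S hS
  nlinarith [mul_le_mul_of_nonneg_left he (sq_nonneg (p : ℝ))]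

/-- The point count of the circle. -/
theorem card_circ_ge (R : ZMod p) (hR : R ≠ 0) (h2 : (2 : ZMod p) ≠ 0) : p - 1 ≤ #(circ R) := by
  obtain ⟨x₀, y₀, hxy⟩ := ZMod.sq_add_sq p R
  have hP : (x₀, y₀) ∈ circ R := mem_circ.2 hxy
  set T : Finset (ZMod p) := univ.filter fun t => 1 + t ^ 2 ≠ 0 with hT
  have hTc : p - 2 ≤ #T := by
    have h := Finset.card_filter_add_card_filter_not
      (s := (univ : Finset (ZMod p))) (fun t => 1 + t ^ 2 = 0)
    have h1 := card_sq_le_two (-1) ((univ : Finset (ZMod p)).filter fun t => 1 + t ^ 2 = 0)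
      fun t ht => by rw [Finset.mem_filter] at ht; linear_combination ht.2
    rw [Finset.card_univ, ZMod.card] at h
    rw [hT]
    simp only [ne_eq]
    omega
  set c : ZMod p → ZMod p := fun t => -2 * (x₀ + t * y₀) / (1 + t ^ 2) with hc
  set f : ZMod p → ZMod p × ZMod p := fun t => (x₀ + c t, y₀ + t * c t) with hf
  have hcm : ∀ t ∈ T, (1 + t ^ 2) * c t = -2 * (x₀ + t * y₀) := fun t ht => by
    rw [hT, Finset.mem_filter] at ht
    rw [hc]
    exact mul_div_cancel₀ _ ht.2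
  have hmem : ∀ t ∈ T, f t ∈ circ R := fun t ht => by
    rw [mem_circ]
    simp only [hf]
    linear_combination hxy + c t * hcm t ht
  have hinj : Set.InjOn f T := by
    intro t ht t' ht' h
    simp only [hf, Prod.mk.injEq, add_right_inj] at h
    by_cases hz : c t = 0
    · have e1 : x₀ + t * y₀ = 0 := by
        have := hcm t ht
        rw [hz, mul_zero] at this
        exact (mul_eq_zero.1 this.symm).resolve_left (neg_ne_zero.2 h2)
      have e2 : x₀ + t' * y₀ = 0 := by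
        have := hcm t' ht'
        rw [← h.1, hz, mul_zero] at this
        exact (mul_eq_zero.1 this.symm).resolve_left (neg_ne_zero.2 h2)
      have hy : y₀ ≠ 0 := fun hy => hR (by
        rw [hy] at e1 hxy; linear_combination -hxy + (x₀) * e1)
      exact mul_right_cancel₀ hy (by linear_combination e1 - e2)
    · have h' := h.2
      rw [← h.1] at h'
      exact mul_right_cancel₀ hz h'
  have hnot : (x₀, -y₀) ∉ T.image f := by
    intro hm
    obtain ⟨t, ht, he⟩ := Finset.mem_image.1 hm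
    simp only [hf, Prod.mk.injEq] at he
    have hz : c t = 0 := by linear_combination he.1
    have hy : y₀ = 0 := by
      have : 2 * y₀ = 0 := by linear_combination he.2 - t * hz
      exact (mul_eq_zero.1 this).resolve_left h2
    have hx : x₀ = 0 := by
      have := hcm t ht
      rw [hz, hy, mul_zero, mul_zero, add_zero] at this
      exact (mul_eq_zero.1 this.symm).resolve_left (neg_ne_zero.2 h2)
    exact hR (by rw [← hxy, hx, hy]; ring)
  have hsub : insert (x₀, -y₀) (T.image f) ⊆ circ R := by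
    intro v hv
    rcases Finset.mem_insert.1 hv with rfl | hv
    · rw [mem_circ]; linear_combination hxy
    · obtain ⟨t, ht, rfl⟩ := Finset.mem_image.1 hv
      exact hmem t ht
  have h := Finset.card_le_card hsub
  rw [Finset.card_insert_of_notMem hnot, Finset.card_image_of_injOn hinj] at h
  omega

theorem two_ne_zero_of_lt (hp : 2 < p) : (2 : ZMod p) ≠ 0 := by
  intro h
  have h' : ((2 : ℕ) : ZMod p) = 0 := by exact_mod_cast h
  rw [ZMod.natCast_eq_zero_iff] at h'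
  exact absurd (Nat.le_of_dvd (by norm_num) h') (by omega)

/-- The rotation by `r`. -/
def rot (r v : ZMod p × ZMod p) : ZMod p × ZMod p :=
  (r.1 * v.1 + r.2 * v.2, -r.2 * v.1 + r.1 * v.2)

theorem rot_mem {r v : ZMod p × ZMod p} {R : ZMod p} (hr : r ∈ circ 1) (hv : v ∈ circ R) :
    rot r v ∈ circ R := by
  rw [mem_circ] at *
  simp only [rot]
  linear_combination (v.1 ^ 2 + v.2 ^ 2) * hr + hv

theorem rot_inv {r v : ZMod p × ZMod p} (hr : r ∈ circ 1) : rot (r.1, -r.2) (rot r v) = v := by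
  rw [mem_circ] at hr
  simp only [rot]
  refine Prod.ext ?_ ?_
  · simp only; linear_combination v.1 * hr
  · simp only; linear_combination v.2 * hr

theorem conj_mem {r : ZMod p × ZMod p} (hr : r ∈ circ 1) : (r.1, -r.2) ∈ circ (1 : ZMod p) := by
  rw [mem_circ] at *
  linear_combination hr

theorem sum_rot {r : ZMod p × ZMod p} (hr : r ∈ circ 1) (R : ZMod p)
    (F : ZMod p × ZMod p → ℂ) : ∑ v ∈ circ R, F (rot r v) = ∑ v ∈ circ R, F v := by
  refine Finset.sum_bij' (fun v _ => rot r v) (fun v _ => rot (r.1, -r.2) v)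
    (fun v hv => rot_mem hr hv) (fun v hv => rot_mem (conj_mem hr) hv)
    (fun v _ => rot_inv hr) (fun v _ => ?_) (fun v _ => rfl)
  simpa using rot_inv (v := v) (conj_mem hr)

theorem bound_of_fourth {n : ℕ} {x K : ℝ} (hK : 0 ≤ K)
    (h : x ^ 4 ≤ K ^ 4 * (n : ℝ) ^ 3) : x ≤ K * (n : ℝ) ^ (3 / 4 : ℝ) := by
  refine le_of_pow_le_pow_left₀ four_ne_zero (by positivity) (h.trans_eq ?_)
  rw [mul_pow, ← Real.rpow_natCast ((n : ℝ) ^ (3 / 4 : ℝ)) 4, ← Real.rpow_mul (by positivity)]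
  norm_num

/-- **Fourier sums on circles**: `3 p^(3/4)` at every frequency `(A, 0)` with `A ≠ 0`. -/
theorem circle_sum_bound (hp : 2 < p) (R A : ZMod p) (hR : R ≠ 0) (hA : A ≠ 0) :
    ‖∑ v ∈ circ R, ZMod.stdAddChar (A * v.1)‖ ≤ 3 * (p : ℝ) ^ (3 / 4 : ℝ) := by
  have h2 := two_ne_zero_of_lt hp
  set z : ℂ := ∑ v ∈ circ R, ZMod.stdAddChar (A * v.1) with hz
  have hi : Set.InjOn (fun r : ZMod p × ZMod p => (A * r.1, A * r.2)) (circ (1 : ZMod p)) := by
    intro a _ b _ h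
    simp only [Prod.mk.injEq] at h
    exact Prod.ext (mul_left_cancel₀ hA h.1) (mul_left_cancel₀ hA h.2)
  have hO := fsum_le h2 R hR (circ R) subset_rfl
    ((circ (1 : ZMod p)).image fun r => (A * r.1, A * r.2)) z (fun ξ hξ => by
      obtain ⟨r, hr, rfl⟩ := Finset.mem_image.1 hξ
      rw [hz, ← sum_rot hr R (fun v => ZMod.stdAddChar (A * v.1)), fsum]
      congr 1
      refine Finset.sum_congr rfl fun v _ => congrArg ZMod.stdAddChar ?_
      simp only [rot]; ring)
  rw [Finset.card_image_of_injOn hi] at hO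
  refine bound_of_fourth (by norm_num) ?_
  have hc : ((p : ℝ) - 1) ≤ #(circ (1 : ZMod p)) := by
    have h1 := card_circ_ge (1 : ZMod p) one_ne_zero h2
    have h3 : p ≤ #(circ (1 : ZMod p)) + 1 := by omega
    have h4 : (p : ℝ) ≤ (#(circ (1 : ZMod p)) : ℝ) + 1 := by exact_mod_cast h3
    linarith
  have hp2 : (3 : ℝ) ≤ p := by exact_mod_cast hp
  have h5 : ((p : ℝ) / 2) * ‖z‖ ^ 4 ≤ 12 * (p : ℝ) ^ 4 :=
    le_trans (mul_le_mul_of_nonneg_right (by linarith) (by positivity)) hO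
  have h6 : (p : ℝ) * ‖z‖ ^ 4 ≤ (p : ℝ) * (24 * (p : ℝ) ^ 3) := by nlinarith
  have h7 := le_of_mul_le_mul_left h6 (by positivity)
  have : (0 : ℝ) ≤ (p : ℝ) ^ 3 := by positivity
  nlinarith

/-- The map `(u + iv) ↦ (u + iv)²` in coordinates. -/
def sqMap (v : ZMod p × ZMod p) : ZMod p × ZMod p := (v.1 ^ 2 - v.2 ^ 2, 2 * v.1 * v.2)

theorem sqMap_eq (h2 : (2 : ZMod p) ≠ 0) {R : ZMod p} {v w : ZMod p × ZMod p}
    (hv : v ∈ circ R) (hw : w ∈ circ R) (h : sqMap v = sqMap w) : v = w ∨ v = -w := by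
  rw [mem_circ] at hv hw
  simp only [sqMap, Prod.mk.injEq] at h
  have h1 : v.1 ^ 2 = w.1 ^ 2 := mul_left_cancel₀ h2 (by linear_combination h.1 + hv - hw)
  have h3 : v.2 ^ 2 = w.2 ^ 2 := by linear_combination hv - hw - h1
  rcases sq_eq_sq_iff_eq_or_eq_neg.1 h1 with e | e <;>
    rcases sq_eq_sq_iff_eq_or_eq_neg.1 h3 with f | f
  · exact Or.inl (Prod.ext e f)
  · have : (2 : ZMod p) * (w.1 * w.2) * 2 = 0 := by
      rw [e, f] at h; linear_combination -h.2
    rcases mul_eq_zero.1 ((mul_eq_zero.1 ((mul_eq_zero.1 this).resolve_right h2)).resolve_left h2)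
      with g | g
    · exact Or.inr (Prod.ext (by rw [e, Prod.fst_neg, g, neg_zero]) f)
    · exact Or.inl (Prod.ext e (by rw [f, g, neg_zero]))
  · have : (2 : ZMod p) * (w.1 * w.2) * 2 = 0 := by
      rw [e, f] at h; linear_combination -h.2
    rcases mul_eq_zero.1 ((mul_eq_zero.1 ((mul_eq_zero.1 this).resolve_right h2)).resolve_left h2)
      with g | g
    · exact Or.inl (Prod.ext (by rw [e, g, neg_zero]) f)
    · exact Or.inr (Prod.ext e (by rw [f, Prod.snd_neg, g, neg_zero]))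
  · exact Or.inr (Prod.ext e f)

theorem sum_sqMap (h2 : (2 : ZMod p) ≠ 0) {R : ZMod p} (hR : R ≠ 0) (F : ZMod p × ZMod p → ℂ) :
    ∑ v ∈ circ R, F (sqMap v) = 2 * ∑ q ∈ (circ R).image sqMap, F q := by
  rw [Finset.sum_comp, Finset.mul_sum]
  refine Finset.sum_congr rfl fun q hq => ?_
  obtain ⟨v, hv, rfl⟩ := Finset.mem_image.1 hq
  have hne : v ≠ -v := by
    intro h
    have e1 : (2 : ZMod p) * v.1 = 0 := by
      have := congrArg Prod.fst h
      rw [Prod.fst_neg] at this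
      linear_combination this
    have e2 : (2 : ZMod p) * v.2 = 0 := by
      have := congrArg Prod.snd h
      rw [Prod.snd_neg] at this
      linear_combination this
    rw [mem_circ, (mul_eq_zero.1 e1).resolve_left h2, (mul_eq_zero.1 e2).resolve_left h2] at hv
    exact hR (by linear_combination -hv)
  have : (circ R).filter (fun w => sqMap w = sqMap v) = {v, -v} := by
    ext w
    simp only [Finset.mem_filter, Finset.mem_insert, Finset.mem_singleton]
    constructor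
    · exact fun h => sqMap_eq h2 h.1 hv h.2
    · rintro (rfl | rfl)
      · exact ⟨hv, rfl⟩
      · refine ⟨?_, by simp [sqMap]⟩
        rw [mem_circ] at hv ⊢
        simpa using hv
  rw [this, Finset.card_pair hne, two_nsmul, two_mul]

/-- The sum of `ψ (A (u² - v²))` over a circle. -/
theorem circle_sq_bound (hp : 2 < p) (R A : ZMod p) (hR : R ≠ 0) (hA : A ≠ 0) :
    ‖∑ v ∈ circ R, ZMod.stdAddChar (A * (v.1 ^ 2 - v.2 ^ 2))‖ ≤ 6 * (p : ℝ) ^ (3 / 4 : ℝ) := by
  have h2 := two_ne_zero_of_lt hp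
  set z : ℂ := ∑ v ∈ circ R, ZMod.stdAddChar (A * (v.1 ^ 2 - v.2 ^ 2)) with hz
  set S := (circ R).image sqMap with hSdef
  have hS : S ⊆ circ (R ^ 2) := by
    intro q hq
    obtain ⟨v, hv, rfl⟩ := Finset.mem_image.1 hq
    rw [mem_circ] at hv ⊢
    simp only [sqMap]
    linear_combination (v.1 ^ 2 + v.2 ^ 2 + R) * hv
  set O := ((circ (1 : ZMod p)).image sqMap).image
    (fun r : ZMod p × ZMod p => (A * r.1, A * r.2)) with hOdef
  have hO := fsum_le h2 (R ^ 2) (pow_ne_zero 2 hR) S hS O (z / 2) (fun ξ hξ => by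
    obtain ⟨_, hs, rfl⟩ := Finset.mem_image.1 hξ
    obtain ⟨r, hr, rfl⟩ := Finset.mem_image.1 hs
    have h := sum_sqMap h2 hR
      (fun q => ZMod.stdAddChar (A * (sqMap r).1 * q.1 + A * (sqMap r).2 * q.2))
    rw [hz, ← sum_rot hr R (fun v => ZMod.stdAddChar (A * (v.1 ^ 2 - v.2 ^ 2)))]
    have h' : ∑ v ∈ circ R, ZMod.stdAddChar (A * ((rot r v).1 ^ 2 - (rot r v).2 ^ 2)) =
        2 * fsum S (A * (sqMap r).1, A * (sqMap r).2) := by
      rw [fsum, hSdef, ← h]
      refine Finset.sum_congr rfl fun v _ => congrArg ZMod.stdAddChar ?_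
      simp only [sqMap, rot]; ring
    rw [h', mul_div_cancel_left₀ _ (two_ne_zero (α := ℂ))])
  have hcard : ((p : ℝ) - 1) / 2 ≤ #O := by
    rw [hOdef, Finset.card_image_of_injOn (fun a _ b _ h => by
      simp only [Prod.mk.injEq] at h
      exact Prod.ext (mul_left_cancel₀ hA h.1) (mul_left_cancel₀ hA h.2))]
    have h1 := sum_sqMap h2 (R := (1 : ZMod p)) one_ne_zero (fun _ => (1 : ℂ))
    simp only [Finset.sum_const, nsmul_eq_mul, mul_one] at h1
    have h3 : #(circ (1 : ZMod p)) = 2 * #((circ (1 : ZMod p)).image sqMap) := by exact_mod_cast h1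
    have h4 := card_circ_ge (1 : ZMod p) one_ne_zero h2
    have h5 : p ≤ 2 * #((circ (1 : ZMod p)).image sqMap) + 1 := by omega
    have h6 : (p : ℝ) ≤ 2 * (#((circ (1 : ZMod p)).image sqMap) : ℝ) + 1 := by exact_mod_cast h5
    linarith
  refine bound_of_fourth (by norm_num) ?_
  have hp2 : (3 : ℝ) ≤ p := by exact_mod_cast hp
  have h5 : ((p : ℝ) / 3) * ‖z / 2‖ ^ 4 ≤ 12 * (p : ℝ) ^ 4 :=
    le_trans (mul_le_mul_of_nonneg_right (by linarith) (by positivity)) hO
  rw [norm_div, Complex.norm_two, div_pow] at h5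
  have h6 : (p : ℝ) * ‖z‖ ^ 4 ≤ (p : ℝ) * (576 * (p : ℝ) ^ 3) := by nlinarith
  have h7 := le_of_mul_le_mul_left h6 (by positivity)
  have : (0 : ℝ) ≤ (p : ℝ) ^ 3 := by positivity
  nlinarith

/-- Number of pairs of nonzero square roots of `c + z` and `c - z`. -/
def nu (c z : ZMod p) : ℕ :=
  #((univ : Finset (ZMod p × ZMod p)).filter fun v =>
    v.1 ≠ 0 ∧ v.2 ≠ 0 ∧ v.1 ^ 2 = c + z ∧ v.2 ^ 2 = c - z)

theorem nu_neg (c z : ZMod p) : nu c (-z) = nu c z := by
  refine Finset.card_bij' (fun v _ => v.swap) (fun v _ => v.swap) ?_ ?_ ?_ ?_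
  all_goals intro v hv
  all_goals simp_all [sub_eq_add_neg, and_comm]

theorem nu_pos_iff (c z : ZMod p) :
    0 < nu c z ↔ (c + z ≠ 0 ∧ IsSquare (c + z)) ∧ (c - z ≠ 0 ∧ IsSquare (c - z)) := by
  rw [nu, Finset.card_pos]
  constructor
  · rintro ⟨⟨u, w⟩, h⟩
    obtain ⟨-, hu, hw, e1, e2⟩ := Finset.mem_filter.1 h
    simp only at hu hw e1 e2
    exact ⟨⟨e1 ▸ pow_ne_zero 2 hu, u, by rw [← e1, pow_two]⟩,
      ⟨e2 ▸ pow_ne_zero 2 hw, w, by rw [← e2, pow_two]⟩⟩
  · rintro ⟨⟨h1, u, hu⟩, ⟨h3, w, hw⟩⟩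
    refine ⟨(u, w), Finset.mem_filter.2 ⟨Finset.mem_univ _, ?_, ?_, ?_, ?_⟩⟩
    · intro h; simp only at h; exact h1 (by rw [hu, h, mul_zero])
    · intro h; simp only at h; exact h3 (by rw [hw, h, mul_zero])
    · rw [hu, pow_two]
    · rw [hw, pow_two]

/-- The points of a circle with both coordinates nonzero. -/
def circ' (R : ZMod p) : Finset (ZMod p × ZMod p) := (circ R).filter fun v => v.1 ≠ 0 ∧ v.2 ≠ 0

theorem card_circ_diff (R : ZMod p) : #(circ R \ circ' R) ≤ 4 := by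
  have hsub : circ R \ circ' R ⊆
      (circ R).filter (fun v => v.1 = 0) ∪ (circ R).filter (fun v => v.2 = 0) := by
    intro v hv
    simp only [circ', Finset.mem_sdiff, Finset.mem_filter] at hv
    simp only [Finset.mem_union, Finset.mem_filter]
    tauto
  refine (Finset.card_le_card hsub).trans ((Finset.card_union_le _ _).trans ?_)
  refine Nat.add_le_add (b := 2) (d := 2) ?_ ?_
  · refine le_of_eq_of_le (Finset.card_image_of_injOn (f := Prod.snd) ?_).symm
      (card_sq_le_two R _ fun y hy => ?_)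
    · intro v hv w hw hvw
      rw [Finset.mem_coe, Finset.mem_filter] at hv hw
      exact Prod.ext (hv.2.trans hw.2.symm) hvw
    · simp only [Finset.mem_image, Finset.mem_filter, mem_circ] at hy
      obtain ⟨v, ⟨hv, h0⟩, rfl⟩ := hy
      rw [h0] at hv; linear_combination hv
  · refine le_of_eq_of_le (Finset.card_image_of_injOn (f := Prod.fst) ?_).symm
      (card_sq_le_two R _ fun y hy => ?_)
    · intro v hv w hw hvw
      rw [Finset.mem_coe, Finset.mem_filter] at hv hw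
      exact Prod.ext hvw (hv.2.trans hw.2.symm)
    · simp only [Finset.mem_image, Finset.mem_filter, mem_circ] at hy
      obtain ⟨v, ⟨hv, h0⟩, rfl⟩ := hy
      rw [h0] at hv; linear_combination hv

theorem sum_nu (h2 : (2 : ZMod p) ≠ 0) (c : ZMod p) (F : ZMod p → ℂ) :
    ∑ z, (nu c z : ℂ) * F z = ∑ v ∈ circ' (2 * c), F ((v.1 ^ 2 - v.2 ^ 2) / 2) := by
  rw [← Finset.sum_fiberwise (circ' (2 * c)) (fun v => (v.1 ^ 2 - v.2 ^ 2) / 2)]
  refine Finset.sum_congr rfl fun z _ => ?_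
  rw [Finset.sum_congr rfl (fun v hv => congrArg F (Finset.mem_filter.1 hv).2), Finset.sum_const,
    nsmul_eq_mul]
  congr 2
  rw [nu]
  congr 1
  ext v
  simp only [circ', Finset.mem_filter, mem_circ, Finset.mem_univ, true_and]
  constructor
  · rintro ⟨hu, hw, e1, e2⟩
    refine ⟨⟨by linear_combination e1 + e2, hu, hw⟩, ?_⟩
    rw [div_eq_iff h2]; linear_combination e1 - e2
  · rintro ⟨⟨e, hu, hw⟩, ez⟩
    rw [div_eq_iff h2] at ez
    exact ⟨hu, hw, mul_left_cancel₀ h2 (by linear_combination e + ez),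
      mul_left_cancel₀ h2 (by linear_combination e - ez)⟩

/-- The weight `nu c` has mass `≥ p/2` and Fourier transform `≤ 10 p^(3/4)` off zero. -/
theorem nu_fourier :
    ∃ C : ℝ, ∃ P₀ : ℕ, 0 < C ∧ ∀ (p : ℕ) [Fact p.Prime], P₀ ≤ p → ∀ c : ZMod p, c ≠ 0 →
      ((p : ℝ) / 2 ≤ ∑ z : ZMod p, (nu c z : ℝ)) ∧
      ∀ t : ZMod p, t ≠ 0 →
        ‖∑ z : ZMod p, (nu c z : ℂ) * ZMod.stdAddChar (t * z)‖ ≤ C * (p : ℝ) ^ (3 / 4 : ℝ) := by
  refine ⟨10, 11, by norm_num, ?_⟩
  intro p _ hp c hc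
  have h2 : (2 : ZMod p) ≠ 0 := two_ne_zero_of_lt (by omega)
  have hR : 2 * c ≠ 0 := mul_ne_zero h2 hc
  have hsub : circ' (2 * c) ⊆ circ (2 * c) := Finset.filter_subset _ _
  refine ⟨?_, fun t ht => ?_⟩
  · have h := sum_nu h2 c (fun _ => 1)
    simp only [mul_one, Finset.sum_const, nsmul_eq_mul] at h
    have h' : ∑ z : ZMod p, nu c z = #(circ' (2 * c)) := by exact_mod_cast h
    have h1 := card_circ_ge (2 * c) hR h2
    have h3 := card_circ_diff (2 * c)
    rw [Finset.card_sdiff_of_subset hsub] at h3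
    have h4 : p ≤ 2 * ∑ z : ZMod p, nu c z := by omega
    have h5 : (p : ℝ) ≤ 2 * ∑ z : ZMod p, (nu c z : ℝ) := by exact_mod_cast h4
    linarith
  · rw [sum_nu h2 c (fun z => ZMod.stdAddChar (t * z))]
    have hsplit := Finset.sum_sdiff hsub
      (f := fun v => ZMod.stdAddChar (t / 2 * (v.1 ^ 2 - v.2 ^ 2)))
    have h6 := circle_sq_bound (p := p) (by omega) (2 * c) (t / 2) hR (div_ne_zero ht h2)
    rw [← hsplit] at h6
    have heq : ∑ v ∈ circ' (2 * c), ZMod.stdAddChar (t * ((v.1 ^ 2 - v.2 ^ 2) / 2)) =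
        ∑ v ∈ circ' (2 * c), ZMod.stdAddChar (t / 2 * (v.1 ^ 2 - v.2 ^ 2)) :=
      Finset.sum_congr rfl fun v _ => by rw [div_mul_eq_mul_div, mul_div_assoc]
    rw [heq]
    have h7 : ‖∑ v ∈ circ (2 * c) \ circ' (2 * c),
        ZMod.stdAddChar (t / 2 * (v.1 ^ 2 - v.2 ^ 2))‖ ≤ 4 := by
      refine (norm_sum_le _ _).trans ?_
      simp only [AddChar.norm_apply, Finset.sum_const, nsmul_eq_mul, mul_one]
      exact_mod_cast card_circ_diff (2 * c)
    have h8 := norm_le_add_norm_add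
      (∑ v ∈ circ' (2 * c), ZMod.stdAddChar (t / 2 * (v.1 ^ 2 - v.2 ^ 2)))
      (∑ v ∈ circ (2 * c) \ circ' (2 * c), ZMod.stdAddChar (t / 2 * (v.1 ^ 2 - v.2 ^ 2)))
    rw [add_comm] at h6
    have h9 : (1 : ℝ) ≤ (p : ℝ) ^ (3 / 4 : ℝ) :=
      Real.one_le_rpow (by exact_mod_cast (by omega : 1 ≤ p)) (by norm_num)
    linarith

end

end Vale.Agent.P042.Loc
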