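import Vale.Agent.P042.Loc.Defs

/-!
Local weights for a restriction of a polynomial with simple roots to a residue class.

At the finitely many small primes the class is chosen so close to a root that all complete sums
are `0` or `1`, so no weight is needed. At a large prime `p` put `r = p ^ (-δ)` and let `dl j` be
`p ^ j` times the indicator of the class modulo `p ^ j` of a simple `p`-adic root. The weights are
`g 1 = (1 - r) (ω - 1) + r (dl 1 - 1)` and `g j = r ^ j (dl j - dl (j - 1))` for `j ≥ 2`. The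
functions `ω` and `dl j` only live on noncritical residues, so against phases modulo higher powers
they vanish, and the Euler factor is `(1 - r) b + r` at `p` and `r ^ i` at `p ^ i`.
-/

open Finset Polynomial

namespace Vale.Agent.P042.Loc

open Vale.Agent.P042.Upper Vale.Agent.P042.Upper.Local

noncomputable section

/-- A weight of small period against phases of nonzero linear part gives `0`. -/
theorem phase_vanish (F D : ℕ → ℤ) {p i l : ℕ} (hp : p.Prime) (hl : l ≤ i) (w : ℕ → ℝ)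
    (hw : ∀ u y : ℕ, w (u + p ^ l * y) = w u) {a : ℤ} (ha : ¬ (p : ℤ) ∣ a)
    (h : ∀ u : ℕ, w u ≠ 0 → (∀ y : ℕ, ((p ^ i : ℕ) : ℤ) ∣
      F (u + p ^ l * y) - F u - ((p ^ l * y : ℕ) : ℤ) * D u) ∧ ¬ ((p ^ (i - l) : ℕ) : ℤ) ∣ D u) :
    ∑ x ∈ range (p ^ i), (w x : ℂ) * eq' (p ^ i) (a * F x) = 0 := by
  have hsplit : p ^ i = p ^ l * p ^ (i - l) := by rw [← pow_add, Nat.add_sub_cancel' hl]
  have h1 := sum_range_split (p ^ l) (p ^ (i - l)) (pow_ne_zero _ hp.ne_zero)
    (fun x => (w x : ℂ) * eq' (p ^ i) (a * F x))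
  rw [← hsplit] at h1
  rw [h1]
  refine sum_eq_zero fun u _ => ?_
  rcases eq_or_ne (w u) 0 with h0 | h0
  · exact sum_eq_zero fun y _ => by rw [hw, h0, Complex.ofReal_zero, zero_mul]
  obtain ⟨hF, hD⟩ := h u h0
  have hterm : ∀ y : ℕ, (w (u + p ^ l * y) : ℂ) * eq' (p ^ i) (a * F (u + p ^ l * y)) =
      (w u : ℂ) * eq' (p ^ i) (a * F u) *
        ee ((y : ℝ) * (((a * D u : ℤ) : ℝ) / (p ^ (i - l) : ℕ))) := by
    intro y
    rw [hw, eq'_congr (pow_ne_zero _ hp.ne_zero)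
      (show ((p ^ i : ℕ) : ℤ) ∣ a * F (u + p ^ l * y) -
          (a * F u + ((p ^ l : ℕ) : ℤ) * (y * (a * D u))) from by
        refine ((hF y).mul_left a).trans (dvd_of_eq ?_)
        push_cast
        ring), mul_assoc]
    congr 1
    simp only [eq', ← ee_add]
    congr 1
    have e1 : (p : ℝ) ≠ 0 := Nat.cast_ne_zero.2 hp.ne_zero
    rw [hsplit]
    push_cast
    field_simp
  rw [sum_congr rfl fun y _ => hterm y, ← mul_sum, geom_zero (pow_ne_zero _ hp.ne_zero), mul_zero]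
  intro hd
  refine hD (Int.dvd_of_dvd_mul_right_of_gcd_one hd ?_)
  rw [← Int.isCoprime_iff_gcd_eq_one, Nat.cast_pow]
  exact ((Nat.prime_iff_prime_int.1 hp).coprime_iff_not_dvd.2 ha).pow_left

/-- An affine map with unit slope permutes the residues. -/
theorem sum_affine {M : Type*} [AddCommMonoid M] {p W : ℕ} (hp : p ≠ 0) (hW : Nat.Coprime p W)
    (A : ℕ) (F : ℕ → M) : ∑ x ∈ range p, F ((A + W * x) % p) = ∑ u ∈ range p, F u := by
  have hinj : Set.InjOn (fun x => (A + W * x) % p) (range p : Finset ℕ) := by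
    intro x hx y hy hxy
    exact Nat.ModEq.eq_of_lt_of_lt
      (Nat.ModEq.cancel_left_of_coprime hW (Nat.ModEq.add_left_cancel' A hxy))
      (mem_range.1 hx) (mem_range.1 hy)
  have hmaps : ∀ x ∈ range p, (A + W * x) % p ∈ range p := fun x _ =>
    mem_range.2 (Nat.mod_lt _ (Nat.pos_of_ne_zero hp))
  exact Finset.sum_nbij (fun x => (A + W * x) % p) hmaps hinj
    (Finset.surjOn_of_injOn_of_card_le _ hmaps hinj le_rfl) fun _ _ => rfl

/-- The residue of an integer, as a natural number. -/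
theorem exists_residue (m : ℕ) (hm : m ≠ 0) (z : ℤ) :
    ∃ u : ℕ, u < m ∧ (m : ℤ) ∣ (u : ℤ) - z ∧
      ∀ x : ℕ, x < m → (m : ℤ) ∣ (x : ℤ) - z → x = u := by
  have h0 : (0 : ℤ) ≤ z % m := Int.emod_nonneg z (by exact_mod_cast hm)
  have h1 : z % (m : ℤ) < m := Int.emod_lt_of_pos z (by omega)
  refine ⟨(z % m).toNat, by omega, ?_, fun x hx hd => ?_⟩
  · rw [Int.toNat_of_nonneg h0]
    exact ⟨-(z / m), by have := Int.emod_add_ediv_mul z m; linarith⟩
  · have hd2 : (z % (m : ℤ)) = (x : ℤ) := by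
      rw [← Int.emod_eq_emod_iff_emod_sub_eq_zero.2 (Int.emod_eq_zero_of_dvd hd),
        Int.emod_eq_of_lt (by omega) (by omega)]
    omega

/-- `p ^ j` times the indicator of a class modulo `p ^ j`. -/
def dl (p j : ℕ) (z : ℤ) (x : ℕ) : ℝ :=
  if ((p ^ j : ℕ) : ℤ) ∣ (x : ℤ) - z then ((p ^ j : ℕ) : ℝ) else 0

theorem dl_zero (p : ℕ) (z : ℤ) (x : ℕ) : dl p 0 z x = 1 := by simp [dl]

theorem dl_mem (p j : ℕ) (z : ℤ) (x : ℕ) : 0 ≤ dl p j z x ∧ dl p j z x ≤ (p : ℝ) ^ j := by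
  unfold dl
  split_ifs <;> refine ⟨?_, ?_⟩ <;> first | positivity | (push_cast; exact le_rfl)

theorem dl_periodic (p j : ℕ) (z : ℤ) {m : ℕ} (hm : p ^ j ∣ m) (x y : ℕ) :
    dl p j z (x + m * y) = dl p j z x := by
  have h1 : ((p ^ j : ℕ) : ℤ) ∣ ((m * y : ℕ) : ℤ) := Int.natCast_dvd_natCast.2 (hm.mul_right y)
  have h2 : ((p ^ j : ℕ) : ℤ) ∣ ((x + m * y : ℕ) : ℤ) - z ↔ ((p ^ j : ℕ) : ℤ) ∣ (x : ℤ) - z := by
    rw [show ((x + m * y : ℕ) : ℤ) - z = ((x : ℤ) - z) + ((m * y : ℕ) : ℤ) by push_cast; ring]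
    exact dvd_add_left h1
  simp only [dl, h2]

theorem dl_fiber {p : ℕ} (hp : p.Prime) (j : ℕ) {z z' : ℤ} (hz : ((p ^ j : ℕ) : ℤ) ∣ z' - z)
    (c : ℕ) : ∑ t ∈ range p, dl p (j + 1) z' (c + p ^ j * t) = p * dl p j z c := by
  by_cases hc : ((p ^ j : ℕ) : ℤ) ∣ (c : ℤ) - z
  · obtain ⟨m, hm⟩ : ((p ^ j : ℕ) : ℤ) ∣ (c : ℤ) - z' := by
      have := dvd_sub hc hz
      rwa [show (c : ℤ) - z - (z' - z) = (c : ℤ) - z' by ring] at this
    obtain ⟨t₀, ht₀, hd₀, huniq⟩ := exists_residue p hp.ne_zero (-m)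
    have key : ∀ t : ℕ, ((p ^ (j + 1) : ℕ) : ℤ) ∣ ((c + p ^ j * t : ℕ) : ℤ) - z' ↔
        (p : ℤ) ∣ (t : ℤ) - -m := fun t => by
      rw [show ((c + p ^ j * t : ℕ) : ℤ) - z' = ((p ^ j : ℕ) : ℤ) * ((t : ℤ) - -m) by
        rw [mul_sub, mul_neg, sub_neg_eq_add, ← hm]; push_cast; ring, pow_succ, Nat.cast_mul]
      exact mul_dvd_mul_iff_left (by exact_mod_cast (pow_ne_zero j hp.ne_zero))
    rw [sum_eq_single_of_mem t₀ (mem_range.2 ht₀) (fun t ht hne => by
      rw [dl, if_neg fun h => hne (huniq t (mem_range.1 ht) ((key t).1 h))])]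
    rw [dl, dl, if_pos ((key t₀).2 hd₀), if_pos hc, pow_succ]
    push_cast
    ring
  · rw [dl, if_neg hc, mul_zero]
    refine sum_eq_zero fun t _ => if_neg fun h => hc ?_
    have h1 : ((p ^ j : ℕ) : ℤ) ∣ ((c + p ^ j * t : ℕ) : ℤ) - z' :=
      (Int.natCast_dvd_natCast.2 (Nat.pow_dvd_pow p (Nat.le_succ j))).trans h
    have h2 := dvd_sub (dvd_add h1 hz) (Dvd.intro (t : ℤ) rfl : ((p ^ j : ℕ) : ℤ) ∣ _)
    rwa [show ((c + p ^ j * t : ℕ) : ℤ) - z' + (z' - z) - ((p ^ j : ℕ) : ℤ) * t = (c : ℤ) - z by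
      push_cast; ring] at h2

/-- Only the class of the root sees the phase at full depth. -/
theorem dl_top (f : ℤ[X]) (a : ℤ) {p i : ℕ} (hp : p.Prime) {z : ℤ}
    (hz : ((p ^ i : ℕ) : ℤ) ∣ f.eval z) :
    ∑ x ∈ range (p ^ i), (dl p i z x : ℂ) * eq' (p ^ i) (a * f.eval (x : ℤ)) = (p ^ i : ℕ) := by
  have hne : p ^ i ≠ 0 := pow_ne_zero _ hp.ne_zero
  obtain ⟨u, hu, hd, huniq⟩ := exists_residue (p ^ i) hne z
  rw [sum_eq_single_of_mem u (mem_range.2 hu) (fun x hx hne' => by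
    rw [dl, if_neg fun h => hne' (huniq x (mem_range.1 hx) h), Complex.ofReal_zero, zero_mul])]
  rw [dl, if_pos hd, eq'_congr hne (m := 0) ?_, eq', Int.cast_zero, zero_div, ee_zero, mul_one,
    Complex.ofReal_natCast]
  have h1 : ((p ^ i : ℕ) : ℤ) ∣ f.eval (u : ℤ) - f.eval z :=
    hd.trans (Polynomial.sub_dvd_eval_sub _ _ f)
  have h2 := dvd_add h1 hz
  rw [sub_add_cancel] at h2
  rw [sub_zero]
  exact h2.mul_left a

/-- Hensel lifting of a simple root. -/
theorem exists_lifts (f : ℤ[X]) {p : ℕ} (hp : p.Prime) {x₀ : ℤ} (h0 : (p : ℤ) ∣ f.eval x₀)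
    (hd0 : ¬ (p : ℤ) ∣ f.derivative.eval x₀) :
    ∃ z : ℕ → ℤ, ∀ j : ℕ, ((p ^ j : ℕ) : ℤ) ∣ z (j + 1) - z j ∧
      ((p ^ j : ℕ) : ℤ) ∣ f.eval (z j) ∧ ¬ (p : ℤ) ∣ f.derivative.eval (z j) := by
  have step : ∀ (l : ℕ) (y : ℤ), ((p ^ (l + 1) : ℕ) : ℤ) ∣ f.eval y →
      ¬ (p : ℤ) ∣ f.derivative.eval y → ∃ y' : ℤ, ((p ^ (l + 1) : ℕ) : ℤ) ∣ y' - y ∧
        ((p ^ (l + 1 + 1) : ℕ) : ℤ) ∣ f.eval y' ∧ ¬ (p : ℤ) ∣ f.derivative.eval y' := by
    rintro l y ⟨m, hm⟩ hy
    obtain ⟨u, v, huv⟩ := (Nat.prime_iff_prime_int.1 hp).coprime_iff_not_dvd.2 hy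
    obtain ⟨w, hw⟩ := Polynomial.binomExpansion f y (((p ^ (l + 1) : ℕ) : ℤ) * (-v * m))
    refine ⟨y + ((p ^ (l + 1) : ℕ) : ℤ) * (-v * m), by simp, ?_, fun h => hy ?_⟩
    · rw [hw, hm]
      refine ⟨u * m + w * ((p ^ l : ℕ) : ℤ) * (v * m) ^ 2, ?_⟩
      have e : f.derivative.eval y * v = 1 - u * (p : ℤ) := by linarith
      push_cast
      linear_combination (-(p : ℤ) ^ (l + 1) * m) * e
    · have h1 : (p : ℤ) ∣ y + ((p ^ (l + 1) : ℕ) : ℤ) * (-v * m) - y := by
        rw [add_sub_cancel_left, Nat.cast_pow]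
        exact (dvd_pow_self _ (Nat.succ_ne_zero l)).mul_right _
      have h2 := dvd_sub h (h1.trans (Polynomial.sub_dvd_eval_sub _ _ f.derivative))
      rwa [sub_sub_cancel] at h2
  choose! nxt hn1 hn2 hn3 using step
  set y : ℕ → ℤ := fun n => Nat.rec (motive := fun _ => ℤ) x₀ (fun l prev => nxt l prev) n
  have hy : ∀ n, ((p ^ (n + 1) : ℕ) : ℤ) ∣ f.eval (y n) ∧
      ¬ (p : ℤ) ∣ f.derivative.eval (y n) := by
    intro n
    induction n with
    | zero => exact ⟨by simpa [y] using h0, hd0⟩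
    | succ n ih => exact ⟨hn2 n (y n) ih.1 ih.2, hn3 n (y n) ih.1 ih.2⟩
  refine ⟨fun j => y (j - 1), fun j => ?_⟩
  rcases j with _ | j
  · exact ⟨by simp, by simp, (hy 0).2⟩
  · exact ⟨hn1 j (y j) (hy j).1 (hy j).2, (hy j).1, (hy j).2⟩

/-- The restriction of `h` to a class. -/
def res (h : ℤ[X]) (c W : ℕ) : ℤ[X] :=
  h.comp (Polynomial.C (c : ℤ) + Polynomial.C (W : ℤ) * X)

theorem eval_res (h : ℤ[X]) (c W : ℕ) (x : ℤ) :
    (res h c W).eval x = h.eval ((c : ℤ) + (W : ℤ) * x) := by simp [res]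

theorem eval_derivative_res (h : ℤ[X]) (c W : ℕ) (x : ℤ) :
    (res h c W).derivative.eval x = (W : ℤ) * h.derivative.eval ((c : ℤ) + (W : ℤ) * x) := by
  simp [res, derivative_comp]

/-- Weights on noncritical residues vanish against phases modulo higher powers. -/
theorem noncritical_vanish (f : ℤ[X]) {p i : ℕ} (hp : p.Prime) (hi : 2 ≤ i) (w : ℕ → ℝ)
    (hw : ∀ u y : ℕ, w (u + p ^ (i - 1) * y) = w u)
    (hcrit : ∀ u : ℕ, w u ≠ 0 → ¬ (p : ℤ) ∣ f.derivative.eval (u : ℤ)) {a : ℤ}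
    (ha : ¬ (p : ℤ) ∣ a) :
    ∑ x ∈ range (p ^ i), (w x : ℂ) * eq' (p ^ i) (a * f.eval (x : ℤ)) = 0 := by
  refine phase_vanish (fun x => f.eval (x : ℤ)) (fun u => f.derivative.eval (u : ℤ)) hp
    (Nat.sub_le i 1) w hw ha fun u hu => ⟨fun y => ?_, ?_⟩
  · obtain ⟨k, hk⟩ :=
      Polynomial.binomExpansion f (u : ℤ) (((p ^ (i - 1) * y : ℕ) : ℤ))
    rw [show ((u + p ^ (i - 1) * y : ℕ) : ℤ) = (u : ℤ) + ((p ^ (i - 1) * y : ℕ) : ℤ) by
      push_cast; ring, hk]
    rw [show ∀ A B C : ℤ, A + B * C + k * C ^ 2 - A - C * B = k * C ^ 2 from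
      fun A B C => by ring]
    refine Dvd.dvd.mul_left ?_ _
    rw [← Nat.cast_pow, Int.natCast_dvd_natCast, mul_pow, ← pow_mul]
    exact (Nat.pow_dvd_pow p (by omega)).mul_right _
  · rw [show i - (i - 1) = 1 by omega, pow_one]
    exact hcrit u hu

/-- Close to a root the complete sums are `0` or `1`. -/
theorem gauss_res_bad (h : ℤ[X]) {p s c W : ℕ} (hp : p.Prime) {z : ℤ}
    (hz : (p : ℤ) ^ (2 * s + 2) ∣ h.eval z) (hdz : ¬ (p : ℤ) ^ (s + 1) ∣ h.derivative.eval z)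
    (hc : (p : ℤ) ^ (2 * s + 2) ∣ (c : ℤ) - z) {w : ℕ} (hW : W = p ^ (s + 1) * w)
    (hw : ¬ p ∣ w) (i : ℕ) {a : ℤ} (ha : ¬ (p : ℤ) ∣ a) :
    gauss (res h c W) a (p ^ i) = 0 ∨ gauss (res h c W) a (p ^ i) = 1 := by
  have hpZ : Prime (p : ℤ) := Nat.prime_iff_prime_int.1 hp
  set d := h.derivative.eval (c : ℤ) with hd
  have hdc : ¬ (p : ℤ) ^ (s + 1) ∣ d := fun hh => hdz (by
    have h1 : (p : ℤ) ^ (s + 1) ∣ d - h.derivative.eval z :=
      ((pow_dvd_pow _ (by omega)).trans hc).trans (Polynomial.sub_dvd_eval_sub _ _ _)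
    have h2 := dvd_sub hh h1
    rwa [sub_sub_cancel] at h2)
  obtain ⟨v, d', hd', hdd⟩ : ∃ (v : ℕ) (d' : ℤ), ¬ (p : ℤ) ∣ d' ∧ d = (p : ℤ) ^ v * d' := by
    have hfin : FiniteMultiplicity (p : ℤ) d := Int.finiteMultiplicity_iff.2
      ⟨by simpa using hp.ne_one, fun h0 => hdc (by rw [h0]; exact dvd_zero _)⟩
    obtain ⟨d', h1, h2⟩ := hfin.exists_eq_pow_mul_and_not_dvd
    exact ⟨_, d', h2, h1⟩
  have hvs : v ≤ s := by
    by_contra hlt
    exact hdc (by rw [hdd]; exact (pow_dvd_pow _ (by omega)).mul_right _)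
  have hWz : (W : ℤ) = (p : ℤ) ^ (s + 1) * (w : ℤ) := by rw [hW]; push_cast; ring
  have hS : ∀ x : ℤ, (p : ℤ) ^ (s + 1 + v) ∣ (res h c W).eval x := by
    intro x
    rw [eval_res]
    obtain ⟨k, hk⟩ := Polynomial.binomExpansion h (c : ℤ) ((W : ℤ) * x)
    rw [hk, ← hd, hdd, hWz]
    refine dvd_add (dvd_add ?_ ⟨d' * w * x, by rw [pow_add]; ring⟩) ?_
    · have h1 : (p : ℤ) ^ (2 * s + 2) ∣ h.eval (c : ℤ) := by
        have h2 := dvd_add (hc.trans (Polynomial.sub_dvd_eval_sub (c : ℤ) z h)) hz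
        rwa [sub_add_cancel] at h2
      exact (pow_dvd_pow _ (by omega)).trans h1
    · refine (pow_dvd_pow (p : ℤ) (show s + 1 + v ≤ (s + 1) * 2 by omega)).trans
        ⟨k * (w * x) ^ 2, ?_⟩
      rw [mul_assoc, mul_pow, ← pow_mul]; ring
  have hne : p ^ i ≠ 0 := pow_ne_zero _ hp.ne_zero
  by_cases hi : i ≤ s + 1 + v
  · refine Or.inr ?_
    rw [gauss_eq, sum_congr rfl (fun x _ => eq'_congr hne (m := 0) (by
      rw [sub_zero, Nat.cast_pow]
      exact (((pow_dvd_pow _ hi).trans (hS x))).mul_left a))]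
    rw [eq', Int.cast_zero, zero_div, ee_zero, sum_const, card_range, nsmul_eq_mul, mul_one,
      div_self (Nat.cast_ne_zero.2 hne)]
  · refine Or.inl ?_
    rw [gauss_eq, div_eq_zero_iff]
    refine Or.inl ?_
    have h1 := phase_vanish (fun x => (res h c W).eval (x : ℤ))
      (fun u => (res h c W).derivative.eval (u : ℤ)) hp (l := i - (s + 1 + v + 1)) (by omega)
      (fun _ => (1 : ℝ)) (fun _ _ => rfl) ha (i := i) fun u _ => ⟨fun y => ?_, ?_⟩
    · simpa using h1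
    · obtain ⟨k, hk⟩ := Polynomial.binomExpansion h ((c : ℤ) + (W : ℤ) * u)
        ((W : ℤ) * ((p ^ (i - (s + 1 + v + 1)) * y : ℕ) : ℤ))
      rw [eval_res, eval_res, eval_derivative_res, show ((u + p ^ (i - (s + 1 + v + 1)) * y : ℕ) : ℤ)
        = (u : ℤ) + ((p ^ (i - (s + 1 + v + 1)) * y : ℕ) : ℤ) by push_cast; ring, mul_add,
        ← add_assoc, hk]
      rw [show ∀ A B C V : ℤ, A + B * (V * C) + k * (V * C) ^ 2 - A - C * (V * B) =
        k * (V * C) ^ 2 from fun A B C V => by ring]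
      refine Dvd.dvd.mul_left ?_ _
      rw [hWz, Nat.cast_mul, Nat.cast_pow, Nat.cast_pow]
      refine (pow_dvd_pow (p : ℤ)
        (show i ≤ (s + 1) * 2 + (i - (s + 1 + v + 1)) * 2 by omega)).trans
        ⟨((w : ℤ) * y) ^ 2, ?_⟩
      rw [pow_add (p : ℤ) ((s + 1) * 2), pow_mul, pow_mul]; ring
    · rw [show i - (i - (s + 1 + v + 1)) = s + 1 + (v + 1) by omega, eval_derivative_res, hWz,
        Nat.cast_pow, pow_add, mul_assoc]
      intro hh
      have h2 := Int.dvd_of_mul_dvd_mul_left (pow_ne_zero _ hpZ.ne_zero) hh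
      have h3 : (p : ℤ) ^ (v + 1) ∣ h.derivative.eval ((c : ℤ) + (p : ℤ) ^ (s + 1) * w * u) := by
        refine ((hpZ.coprime_iff_not_dvd.2 ?_).pow_left).dvd_of_dvd_mul_left h2
        exact fun hh' => hw (Int.natCast_dvd_natCast.1 hh')
      have h4 : (p : ℤ) ^ (v + 1) ∣
          h.derivative.eval ((c : ℤ) + (p : ℤ) ^ (s + 1) * w * u) - d := by
        refine dvd_trans ?_ (Polynomial.sub_dvd_eval_sub _ _ h.derivative)
        rw [add_sub_cancel_left, mul_assoc]
        exact (pow_dvd_pow _ (by omega)).mul_right _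
      have h5 := dvd_sub h3 h4
      rw [sub_sub_cancel, hdd, pow_succ] at h5
      exact hd' (Int.dvd_of_mul_dvd_mul_left (pow_ne_zero _ hpZ.ne_zero) h5)

/-- The weights at a good prime. -/
def good (p : ℕ) (r : ℝ) (w : ℕ → ℝ) (z : ℕ → ℤ) : ℕ → ℕ → ℝ
  | 0, _ => 1
  | 1, x => (1 - r) * (w x - 1) + r * (dl p 1 (z 1) x - 1)
  | j + 2, x => r ^ (j + 2) * (dl p (j + 2) (z (j + 2)) x - dl p (j + 1) (z (j + 1)) x)

/-- The data at a good prime. -/
structure GoodData (f : ℤ[X]) (p : ℕ) (w : ℕ → ℝ) (z : ℕ → ℤ) (B : ℝ) : Prop where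
  prime : p.Prime
  nonneg : ∀ x, 0 ≤ w x
  le : ∀ x, w x ≤ p
  periodic : ∀ x y : ℕ, w (x + p * y) = w x
  sum : ∀ c : ℕ, ∑ t ∈ range p, w (c + t) = p
  crit : ∀ u : ℕ, w u ≠ 0 → ¬ (p : ℤ) ∣ f.derivative.eval (u : ℤ)
  lift : ∀ j : ℕ, ((p ^ j : ℕ) : ℤ) ∣ z (j + 1) - z j ∧ ((p ^ j : ℕ) : ℤ) ∣ f.eval (z j) ∧
    ¬ (p : ℤ) ∣ f.derivative.eval (z j)
  first : ∀ a : ℤ, ¬ (p : ℤ) ∣ a →
    (∑ x ∈ range p, (w x : ℂ) * eq' p (a * f.eval (x : ℤ))).im = 0 ∧
    ‖(∑ x ∈ range p, (w x : ℂ) * eq' p (a * f.eval (x : ℤ))) / (p : ℂ)‖ ≤ B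

namespace GoodData

variable {f : ℤ[X]} {p : ℕ} {w : ℕ → ℝ} {z : ℕ → ℤ} {B : ℝ} {r : ℝ}

theorem good_periodic (hG : GoodData f p w z B) (j x : ℕ) :
    good p r w z j (x + p ^ j) = good p r w z j x := by
  match j with
  | 0 => rfl
  | 1 =>
    have h1 := dl_periodic p 1 (z 1) (dvd_refl (p ^ 1)) x 1
    have h2 := hG.periodic x 1
    rw [mul_one] at h1 h2
    simp only [good, pow_one] at h1 h2 ⊢
    rw [h1, h2]
  | j + 2 =>
    have h1 := dl_periodic p (j + 2) (z (j + 2)) (dvd_refl (p ^ (j + 2))) x 1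
    have h2 := dl_periodic p (j + 1) (z (j + 1)) (Nat.pow_dvd_pow p (by omega : j + 1 ≤ j + 2)) x 1
    rw [mul_one] at h1 h2
    simp only [good]
    rw [h1, h2]

theorem good_mean (hG : GoodData f p w z B) (j c : ℕ) :
    ∑ t ∈ range p, good p r w z (j + 1) (c + p ^ j * t) = 0 := by
  match j with
  | 0 =>
    have h1 := dl_fiber hG.prime 0 (hG.lift 0).1 c
    simp only [zero_add, pow_zero, one_mul, dl_zero, mul_one] at h1
    simp only [good, zero_add, pow_zero, one_mul, sum_add_distrib, ← mul_sum, sum_sub_distrib,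
      hG.sum, h1, sum_const, card_range, nsmul_eq_mul, mul_one, sub_self, mul_zero]
  | j + 1 =>
    have h1 := dl_fiber hG.prime (j + 1) (hG.lift (j + 1)).1 c
    simp only [good, ← mul_sum, sum_sub_distrib, h1,
      dl_periodic p (j + 1) (z (j + 1)) (dvd_refl (p ^ (j + 1))), sum_const, card_range,
      nsmul_eq_mul, sub_self, mul_zero]

theorem good_bound (hG : GoodData f p w z B) (hr0 : 0 ≤ r) (hr1 : r ≤ 1) (j x : ℕ) :
    |good p r w z j x| ≤ (p : ℝ) ^ (3 * j) := by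
  have hp1 : (1 : ℝ) ≤ p := by exact_mod_cast hG.prime.one_le
  match j with
  | 0 => simp [good]
  | 1 =>
    have h1 := dl_mem p 1 (z 1) x
    rw [pow_one] at h1
    have e1 : |w x - 1| ≤ (p : ℝ) := abs_le.2 ⟨by linarith [hG.nonneg x], by linarith [hG.le x]⟩
    have e2 : |dl p 1 (z 1) x - 1| ≤ (p : ℝ) := abs_le.2 ⟨by linarith, by linarith⟩
    calc |good p r w z 1 x| ≤ (1 - r) * |w x - 1| + r * |dl p 1 (z 1) x - 1| := by
          refine (abs_add_le _ _).trans (le_of_eq ?_)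
          rw [abs_mul, abs_mul, abs_of_nonneg hr0, abs_of_nonneg (by linarith : 0 ≤ 1 - r)]
      _ ≤ (1 - r) * p + r * p := by gcongr
      _ = (p : ℝ) ^ 1 := by ring
      _ ≤ _ := pow_le_pow_right₀ hp1 (by omega)
  | j + 2 =>
    have h1 := dl_mem p (j + 2) (z (j + 2)) x
    have h2 := dl_mem p (j + 1) (z (j + 1)) x
    have h3 : (p : ℝ) ^ (j + 1) ≤ (p : ℝ) ^ (j + 2) := pow_le_pow_right₀ hp1 (by omega)
    have h4 : (p : ℝ) ^ (j + 2) ≤ (p : ℝ) ^ (3 * (j + 2)) := pow_le_pow_right₀ hp1 (by omega)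
    have hrj : r ^ (j + 2) ≤ 1 := pow_le_one₀ hr0 hr1
    simp only [good]
    rw [abs_mul, abs_of_nonneg (pow_nonneg hr0 _)]
    refine (mul_le_of_le_one_left (abs_nonneg _) hrj).trans (abs_le.2 ⟨?_, ?_⟩) <;> linarith

theorem loc_good (hG : GoodData f p w z B) {g : ℕ → ℕ → ℕ → ℝ} (hg : g p = good p r w z)
    {i : ℕ} (hi : 1 ≤ i) {a : ℤ} (ha : ¬ (p : ℤ) ∣ a) :
    ∃ b : ℝ, |b| ≤ max B 0 ∧ (i ≠ 1 → b = 0) ∧
      ∑ j ∈ range (i + 1), loc f g p a i j = (((1 - r) * b + r ^ i : ℝ) : ℂ) ∧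
      ∑ j ∈ range (i + 1), ‖loc f g p a i j‖ ≤
        2 * ‖gauss f a (p ^ i)‖ + |(1 - r) * b| + |r ^ i| := by
  have hp := hG.prime
  have hne : ((p ^ i : ℕ) : ℂ) ≠ 0 := Nat.cast_ne_zero.2 (pow_ne_zero _ hp.ne_zero)
  set E : ℕ → ℂ := fun j => (∑ x ∈ range (p ^ i),
    (dl p j (z j) x : ℂ) * eq' (p ^ i) (a * f.eval (x : ℤ))) / (p ^ i : ℕ) with hE
  set Ω : ℂ := (∑ x ∈ range (p ^ i),
    (w x : ℂ) * eq' (p ^ i) (a * f.eval (x : ℤ))) / (p ^ i : ℕ) with hΩ
  set G := gauss f a (p ^ i) with hGdef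
  have hEtop : E i = 1 := by
    simp only [hE]
    rw [dl_top f a hp (hG.lift i).2.1, div_self hne]
  have hEmid : ∀ j, 1 ≤ j → j < i → E j = 0 := by
    intro j hj hji
    simp only [hE]
    rw [noncritical_vanish f hp (by omega) (dl p j (z j))
      (dl_periodic p j (z j) (Nat.pow_dvd_pow p (by omega))) (fun u hu hd => ?_) ha, zero_div]
    have h1 : ((p ^ j : ℕ) : ℤ) ∣ (u : ℤ) - z j := by
      by_contra h1
      exact hu (if_neg h1)
    have h2 : (p : ℤ) ∣ f.derivative.eval (u : ℤ) - f.derivative.eval (z j) :=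
      ((dvd_pow_self (p : ℤ) (by omega : j ≠ 0)).trans (by rwa [← Nat.cast_pow])).trans
        (Polynomial.sub_dvd_eval_sub _ _ _)
    have h3 := dvd_sub hd h2
    rw [sub_sub_cancel] at h3
    exact (hG.lift j).2.2 h3
  have hl0 : loc f g p a i 0 = G := by
    rw [hGdef, gauss_eq, loc, hg]
    simp [good]
  have hl1 : loc f g p a i 1 = (1 - (r : ℂ)) * Ω + (r : ℂ) * E 1 - G := by
    rw [loc, hg, hΩ, hE, hGdef, gauss_eq]
    simp only [good, ← mul_div_assoc, ← add_div, ← sub_div, mul_sum, ← sum_add_distrib,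
      ← sum_sub_distrib]
    congr 1
    refine sum_congr rfl fun x _ => ?_
    push_cast
    ring
  have hl2 : ∀ j, loc f g p a i (j + 2) = (r : ℂ) ^ (j + 2) * (E (j + 2) - E (j + 1)) := by
    intro j
    rw [loc, hg, hE]
    simp only [good, ← sub_div, ← mul_div_assoc, ← sum_sub_distrib, mul_sum]
    congr 1
    refine sum_congr rfl fun x _ => ?_
    push_cast
    ring
  obtain rfl | hi2 : i = 1 ∨ 2 ≤ i := by omega
  · obtain ⟨him, hB⟩ := hG.first a ha
    have hΩ' : Ω = (∑ x ∈ range p, (w x : ℂ) * eq' p (a * f.eval (x : ℤ))) / (p : ℂ) := by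
      rw [hΩ, pow_one]
    rw [← hΩ'] at hB
    have hΩre : Ω = (Ω.re : ℂ) := by
      refine Complex.ext rfl ?_
      rw [Complex.ofReal_im, hΩ', Complex.div_natCast_im, him, zero_div]
    refine ⟨Ω.re, ((Complex.abs_re_le_norm _).trans hB).trans (le_max_left _ _),
      fun hh => absurd rfl hh, ?_, ?_⟩
    · rw [sum_range_succ, sum_range_one, hl0, hl1, hEtop, hΩre]
      push_cast
      simp only [Complex.ofReal_re]
      ring
    · rw [sum_range_succ, sum_range_one, hl0, hl1, hEtop]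
      have h1 : ‖(1 - (r : ℂ)) * Ω + (r : ℂ) * 1 - G‖ ≤
          |(1 - r) * Ω.re| + |r ^ 1| + ‖G‖ := by
        refine (norm_sub_le _ _).trans (add_le_add ((norm_add_le _ _).trans (le_of_eq ?_)) le_rfl)
        rw [mul_one, Complex.norm_real, Real.norm_eq_abs, pow_one]
        congr 1
        rw [← Real.norm_eq_abs, ← Complex.norm_real]
        congr 1
        push_cast
        rw [← hΩre]
      linarith
  · have hΩ0 : Ω = 0 := by
      rw [hΩ, noncritical_vanish f hp hi2 w (fun u y => ?_) hG.crit ha, zero_div]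
      rw [show p ^ (i - 1) * y = p * (p ^ (i - 1 - 1) * y) by
        rw [← mul_assoc, ← pow_succ']; congr 2; omega, hG.periodic]
    obtain ⟨n, rfl⟩ : ∃ n, i = n + 2 := ⟨i - 2, by omega⟩
    have hmid : ∀ m ∈ range n, loc f g p a (n + 2) (m + 2) = 0 := fun m hm => by
      rw [mem_range] at hm
      rw [hl2, hEmid (m + 2) (by omega) (by omega), hEmid (m + 1) (by omega) (by omega), sub_self,
        mul_zero]
    have htop : loc f g p a (n + 2) (n + 2) = ((r ^ (n + 2) : ℝ) : ℂ) := by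
      rw [hl2, hEtop, hEmid (n + 1) (by omega) (by omega), sub_zero, mul_one]
      push_cast
      rfl
    have hfirst : loc f g p a (n + 2) 1 = -G := by
      rw [hl1, hΩ0, hEmid 1 le_rfl (by omega)]
      ring
    refine ⟨0, by simp, fun _ => rfl, ?_, ?_⟩
    · rw [sum_range_succ, sum_range_succ', sum_range_succ',
        sum_eq_zero (fun m hm => hmid m hm), htop, hl0, hfirst]
      push_cast
      ring
    · rw [sum_range_succ, sum_range_succ', sum_range_succ',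
        sum_eq_zero (fun m hm => by rw [hmid m hm, norm_zero]), htop, hl0, hfirst, norm_neg,
        Complex.norm_real, Real.norm_eq_abs, mul_zero, abs_zero]
      linarith

end GoodData

/-- A polynomial with simple roots and symmetric weights has a restriction with local weights. -/
theorem exists_weights (h : ℤ[X]) (hk : 1 ≤ h.natDegree) (hroot : SimpleRoots h)
    (hsym : HasSymWeights h) :
    ∃ (W : ℕ) (c : ℕ) (g : ℕ → ℕ → ℕ → ℝ) (C κ : ℝ), 1 ≤ W ∧
      Weights (h.comp (Polynomial.C (c : ℤ) + Polynomial.C (W : ℤ) * X)) g C κ := by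
  classical
  obtain ⟨hr1, P₁, hr2⟩ := hroot
  obtain ⟨Cs, η, P₀, hη, hω⟩ := hsym
  choose! s hs using hr1
  have hz : ∀ p : ℕ, p.Prime → ∃ z : ℤ, (p : ℤ) ^ (2 * s p + 2) ∣ h.eval z ∧
      ¬ (p : ℤ) ^ (s p + 1) ∣ h.derivative.eval z := fun p hp => hs p hp (2 * s p + 2)
  choose! zb hzb1 hzb2 using hz
  set P := max P₀ P₁ with hP
  set S := (range P).filter Nat.Prime with hS
  have hSmem : ∀ {p : ℕ}, p.Prime → p < P → p ∈ S := fun hp hlt =>
    mem_filter.2 ⟨mem_range.2 hlt, hp⟩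
  have hSp : ∀ p ∈ S, p.Prime := fun p hp => (mem_filter.1 hp).2
  set W := ∏ p ∈ S, p ^ (s p + 1) with hWdef
  have hW1 : 1 ≤ W := prod_pos fun p hp => pow_pos (hSp p hp).pos _
  obtain ⟨c, hc⟩ : ∃ c : ℕ, ∀ p ∈ S, (p : ℤ) ^ (2 * s p + 2) ∣ (c : ℤ) - zb p := by
    refine ⟨Nat.chineseRemainderOfFinset (fun p => (zb p % (p : ℤ) ^ (2 * s p + 2)).toNat)
      (fun p => p ^ (2 * s p + 2)) S (fun p hp => pow_ne_zero _ (hSp p hp).ne_zero)
      (fun p hp q hq hpq => Nat.Coprime.pow _ _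
        ((Nat.coprime_primes (hSp p hp) (hSp q hq)).2 hpq)), fun p hp => ?_⟩
    have h1 := (Nat.chineseRemainderOfFinset (fun p => (zb p % (p : ℤ) ^ (2 * s p + 2)).toNat)
      (fun p => p ^ (2 * s p + 2)) S (fun p hp => pow_ne_zero _ (hSp p hp).ne_zero)
      (fun p hp q hq hpq => Nat.Coprime.pow _ _
        ((Nat.coprime_primes (hSp p hp) (hSp q hq)).2 hpq))).2 p hp
    have h2 := h1.symm.dvd
    rw [Nat.cast_pow, Int.toNat_of_nonneg
      (Int.emod_nonneg _ (pow_ne_zero _ (by exact_mod_cast (hSp p hp).ne_zero)))] at h2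
    have h3 : (p : ℤ) ^ (2 * s p + 2) ∣ zb p % (p : ℤ) ^ (2 * s p + 2) - zb p :=
      ⟨-(zb p / (p : ℤ) ^ (2 * s p + 2)), by
        linarith [Int.emod_add_ediv_mul (zb p) ((p : ℤ) ^ (2 * s p + 2))]⟩
    have h4 := dvd_add h2 h3
    rwa [sub_add_sub_cancel] at h4
  set f := res h c W with hf
  -- the factor of `W` at a small prime, and coprimality at large primes
  have hWbad : ∀ p ∈ S, ∃ w, W = p ^ (s p + 1) * w ∧ ¬ p ∣ w := fun p hp => by
    refine ⟨∏ q ∈ S.erase p, q ^ (s q + 1), (mul_prod_erase S _ hp).symm, fun hd => ?_⟩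
    obtain ⟨q, hq, hpq⟩ := ((hSp p hp).prime.dvd_finsetProd_iff _).1 hd
    exact (mem_erase.1 hq).1 ((Nat.prime_dvd_prime_iff_eq (hSp p hp)
      (hSp q (mem_erase.1 hq).2)).1 ((hSp p hp).dvd_of_dvd_pow hpq)).symm
  have hWgood : ∀ p : ℕ, p.Prime → P ≤ p → Nat.Coprime p W := fun p hp hle => by
    rw [hp.coprime_iff_not_dvd]
    intro hd
    obtain ⟨q, hq, hpq⟩ := (hp.prime.dvd_finsetProd_iff _).1 hd
    have := (Nat.prime_dvd_prime_iff_eq hp (hSp q hq)).1 (hp.dvd_of_dvd_pow hpq)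
    have := mem_range.1 (mem_filter.1 hq).1
    omega
  -- decay of the complete sums of the restriction
  have hlc : h.leadingCoeff ≠ 0 := by
    rw [leadingCoeff_ne_zero]
    intro h0
    simp [h0] at hk
  obtain ⟨ω', C₁, η₁, hgw, hgauss⟩ := exists_weight h.natDegree
    (h.leadingCoeff * (W : ℤ) ^ h.natDegree).natAbs
    (by rw [Int.natAbs_ne_zero]; exact mul_ne_zero hlc (pow_ne_zero _ (by omega)))
  have hfd : f.natDegree = h.natDegree := by
    rw [hf, res, natDegree_comp, natDegree_C_add, natDegree_C_mul_X _ (by omega), mul_one]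
  have hflead : f.coeff h.natDegree = h.leadingCoeff * (W : ℤ) ^ h.natDegree := by
    rw [← hfd, ← leadingCoeff, hf, res, leadingCoeff_comp
      (by rw [natDegree_C_add, natDegree_C_mul_X _ (by omega)]; omega), ← hfd, hf, res,
      natDegree_comp, natDegree_C_add, natDegree_C_mul_X _ (by omega), mul_one]
    congr 2
    rw [leadingCoeff, natDegree_C_add, natDegree_C_mul_X _ (by omega)]
    simp
  have hG : ∀ (p i : ℕ), p.Prime → 1 ≤ i → ∀ a : ℤ, ¬ (p : ℤ) ∣ a →
      ‖gauss f a (p ^ i)‖ ≤ max C₁ 0 * (p : ℝ) ^ (-(η₁ * i)) := by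
    intro p i hp _ a ha
    have hgcd : Int.gcd a (p ^ i : ℕ) = 1 := by
      rw [← Int.isCoprime_iff_gcd_eq_one, Nat.cast_pow]
      exact ((Nat.prime_iff_prime_int.1 hp).coprime_iff_not_dvd.2 ha).symm.pow_right
    have h1 := hgauss f hfd.le (fun e he => by
      have := he h.natDegree hk
      rw [hflead] at this
      exact Int.natCast_dvd.1 this) (p ^ i) (Nat.one_le_pow _ _ hp.pos) a hgcd
    refine (h1.trans (hgw.decay _ (Nat.one_le_pow _ _ hp.pos))).trans (le_of_eq_of_le ?_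
      (mul_le_mul_of_nonneg_right (le_max_left C₁ 0) (by positivity)))
    rw [Nat.cast_pow, ← Real.rpow_natCast, ← Real.rpow_mul (Nat.cast_nonneg p)]
    ring_nf
  -- the data at large primes
  choose! ω hω0 hωsum hωcrit hωreal using hω
  have hx0 : ∀ p : ℕ, p.Prime → P ≤ p → ∃ z : ℕ → ℤ, ∀ j : ℕ,
      ((p ^ j : ℕ) : ℤ) ∣ z (j + 1) - z j ∧ ((p ^ j : ℕ) : ℤ) ∣ f.eval (z j) ∧
        ¬ (p : ℤ) ∣ f.derivative.eval (z j) := by
    intro p hp hle
    obtain ⟨z, hz1, hz2⟩ := hr2 p hp ((le_max_right _ _).trans hle)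
    obtain ⟨u, v, huv⟩ : IsCoprime (p : ℤ) (W : ℤ) := Nat.Coprime.isCoprime (hWgood p hp hle)
    have harg : (p : ℤ) ∣ (c : ℤ) + (W : ℤ) * (v * (z - c)) - z :=
      ⟨-(u * (z - c)), by linear_combination (z - (c : ℤ)) * huv⟩
    refine exists_lifts f hp (x₀ := v * (z - c)) ?_ ?_
    · have h1 := dvd_add (harg.trans (Polynomial.sub_dvd_eval_sub _ _ h)) hz1
      rw [sub_add_cancel] at h1
      rwa [hf, eval_res]
    · rw [hf, eval_derivative_res]
      intro hd
      have h1 : (p : ℤ) ∣ h.derivative.eval ((c : ℤ) + (W : ℤ) * (v * (z - c))) :=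
        (Int.isCoprime_iff_gcd_eq_one.2 (Int.isCoprime_iff_gcd_eq_one.1
          (⟨u, v, huv⟩ : IsCoprime (p : ℤ) (W : ℤ)))).dvd_of_dvd_mul_left hd
      have h2 := dvd_sub h1 (harg.trans (Polynomial.sub_dvd_eval_sub _ _ h.derivative))
      rw [sub_sub_cancel] at h2
      exact hz2 h2
  choose! zg hzg using hx0
  set δ : ℝ := min (η / 2) (η / (2 * (max Cs 0 + 1))) with hδ
  have hδ0 : 0 < δ := lt_min (by linarith) (by positivity)
  set g : ℕ → ℕ → ℕ → ℝ := fun p =>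
    if p < P then fun j _ => if j = 0 then 1 else 0
    else good p ((p : ℝ) ^ (-δ)) (fun x => ω p ((c + W * x) % p)) (zg p) with hg
  have hgbad : ∀ p, p < P → g p = fun j _ => if j = 0 then 1 else 0 := fun p hp => if_pos hp
  have hggood : ∀ p, P ≤ p →
      g p = good p ((p : ℝ) ^ (-δ)) (fun x => ω p ((c + W * x) % p)) (zg p) :=
    fun p hp => if_neg (not_lt.2 hp)
  have hdata : ∀ p : ℕ, p.Prime → P ≤ p → GoodData f p (fun x => ω p ((c + W * x) % p)) (zg p)
      (max Cs 0 * (p : ℝ) ^ (-η)) := by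
    intro p hp hle
    have hle0 : P₀ ≤ p := (le_max_left _ _).trans hle
    have hpR : (0 : ℝ) < p := by exact_mod_cast hp.pos
    refine ⟨hp, fun x => hω0 p hp hle0 _, fun x => ?_, fun x y => ?_, fun d => ?_, fun u hu hd => ?_,
      hzg p hp hle, fun a ha => ?_⟩
    · exact (single_le_sum (fun y _ => hω0 p hp hle0 y)
        (mem_range.2 (Nat.mod_lt _ hp.pos))).trans_eq (hωsum p hp hle0)
    · rw [show c + W * (x + p * y) = c + W * x + p * (W * y) by ring, Nat.add_mul_mod_self_left]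
    · rw [← hωsum p hp hle0, ← sum_affine hp.ne_zero (hWgood p hp hle) (c + W * d) (ω p)]
      exact sum_congr rfl fun t _ => by rw [show c + W * (d + t) = c + W * d + W * t by ring]
    · refine hu (hωcrit p hp hle0 _ (Nat.mod_lt _ hp.pos) ?_)
      rw [hf, eval_derivative_res] at hd
      have h1 : (p : ℤ) ∣ h.derivative.eval ((c : ℤ) + (W : ℤ) * u) :=
        (Nat.Coprime.isCoprime (hWgood p hp hle)).dvd_of_dvd_mul_left hd
      have h2 : (p : ℤ) ∣ h.derivative.eval (((c + W * u) % p : ℕ) : ℤ) -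
          h.derivative.eval ((c : ℤ) + (W : ℤ) * u) := by
        refine dvd_trans ?_ (Polynomial.sub_dvd_eval_sub _ _ _)
        have := (Nat.mod_modEq (c + W * u) p).symm.dvd
        push_cast at this ⊢
        exact this
      have h3 := dvd_add h2 h1
      rwa [sub_add_cancel] at h3
    · have he : ∑ x ∈ range p, ((fun x => ω p ((c + W * x) % p)) x : ℂ) *
          eq' p (a * f.eval (x : ℤ)) =
          ∑ x ∈ range p, (ω p x : ℂ) * eq' p (a * h.eval (x : ℤ)) := by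
        rw [← sum_affine hp.ne_zero (hWgood p hp hle) c
          (fun x => (ω p x : ℂ) * eq' p (a * h.eval (x : ℤ)))]
        refine sum_congr rfl fun x _ => ?_
        congr 1
        refine eq'_congr hp.ne_zero ?_
        rw [← mul_sub, hf, eval_res]
        refine ((dvd_trans ?_ (Polynomial.sub_dvd_eval_sub _ _ h))).mul_left a
        have := (Nat.mod_modEq (c + W * x) p).dvd
        push_cast at this ⊢
        exact this
      rw [he]
      obtain ⟨h1, h2⟩ := hωreal p hp hle0 a ha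
      refine ⟨h1, ?_⟩
      rw [norm_div, Complex.norm_natCast, div_le_iff₀ hpR]
      refine h2.trans ?_
      calc Cs * (p : ℝ) ^ (1 - η) ≤ max Cs 0 * (p : ℝ) ^ (1 - η) :=
            mul_le_mul_of_nonneg_right (le_max_left _ _) (by positivity)
        _ = _ := by rw [show 1 - η = -η + 1 by ring, Real.rpow_add_one hpR.ne']; ring
  refine ⟨W, c, g, 3 * (max C₁ 0 + max Cs 0 + 1), min δ (min η η₁), hW1, ?_⟩
  change Weights f g _ _
  refine ⟨lt_min hδ0 (lt_min hη hgw.delta_pos), fun p n => ?_, fun p j n hp => ?_,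
    fun p j d hp => ?_, fun p j n hp => ?_, fun p i hp hi a ha => ?_, fun p i hp hi a ha => ?_⟩
  · rcases lt_or_ge p P with hlt | hle
    · rw [hgbad p hlt]; rfl
    · rw [hggood p hle]; rfl
  · rcases lt_or_ge p P with hlt | hle
    · rw [hgbad p hlt]
    · rw [hggood p hle]; exact (hdata p hp hle).good_periodic j n
  · rcases lt_or_ge p P with hlt | hle
    · rw [hgbad p hlt]; simp
    · rw [hggood p hle]; exact (hdata p hp hle).good_mean j d
  · rcases lt_or_ge p P with hlt | hle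
    · have hp1 : (1 : ℝ) ≤ p := by exact_mod_cast hp.one_le
      rw [hgbad p hlt]
      have := one_le_pow₀ hp1 (n := 3 * j)
      rcases eq_or_ne j 0 with rfl | hj <;> simp [*]
    · rw [hggood p hle]
      exact (hdata p hp hle).good_bound (by positivity) (Real.rpow_le_one_of_one_le_of_nonpos
        (by exact_mod_cast hp.one_le) (by linarith)) j n
  · rcases lt_or_ge p P with hlt | hle
    · have hsum : ∑ j ∈ range (i + 1), loc f g p a i j = gauss f a (p ^ i) := by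
        rw [sum_range_succ', sum_eq_zero (fun j _ => by simp [loc, hgbad p hlt]), zero_add, loc,
          hgbad p hlt, gauss_eq]
        simp
      rw [hsum]
      obtain ⟨w, hWw, hw⟩ := hWbad p (hSmem hp hlt)
      rcases gauss_res_bad h hp (hzb1 p hp) (hzb2 p hp) (hc p (hSmem hp hlt)) hWw hw i ha with
        e | e <;> simp [hf, e]
    · obtain ⟨b, hb, hb1, hsum, -⟩ := (hdata p hp hle).loc_good (hggood p hle) hi ha
      rw [hsum]
      refine ⟨Complex.ofReal_im _, ?_⟩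
      rw [Complex.ofReal_re]
      set r : ℝ := (p : ℝ) ^ (-δ) with hr
      have hp1 : (1 : ℝ) ≤ p := by exact_mod_cast hp.one_le
      have hpR : (0 : ℝ) < p := by linarith
      have hr0 : 0 < r := Real.rpow_pos_of_pos hpR _
      have hr1 : r ≤ 1 := Real.rpow_le_one_of_one_le_of_nonpos hp1 (by linarith)
      rcases eq_or_ne i 1 with rfl | hne
      · rw [pow_one]
        have hlog : 1 - r ≤ δ * Real.log p := by
          rw [hr, Real.rpow_def_of_pos hpR]
          linarith [Real.add_one_le_exp (Real.log p * -δ)]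
        have hlog2 : Real.log p ≤ (p : ℝ) ^ (η / 2) / (η / 2) :=
          Real.log_le_rpow_div hpR.le (by linarith)
        have hpow : (p : ℝ) ^ (η / 2) * (p : ℝ) ^ (-η) ≤ r := by
          rw [hr, ← Real.rpow_add hpR]
          have hδη : δ ≤ η / 2 := min_le_left _ _
          exact Real.rpow_le_rpow_of_exponent_le hp1 (by linarith)
        have hkey : (1 - r) * |b| ≤ r := by
          rw [max_eq_left (by positivity : (0 : ℝ) ≤ max Cs 0 * (p : ℝ) ^ (-η))] at hb
          calc (1 - r) * |b| ≤ δ * ((p : ℝ) ^ (η / 2) / (η / 2)) *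
                (max Cs 0 * (p : ℝ) ^ (-η)) :=
              mul_le_mul (hlog.trans (mul_le_mul_of_nonneg_left hlog2 hδ0.le)) hb (abs_nonneg _)
                (by positivity)
            _ = δ * max Cs 0 * (2 / η) * ((p : ℝ) ^ (η / 2) * (p : ℝ) ^ (-η)) := by
              field_simp
            _ ≤ 1 * r := by
              refine mul_le_mul ?_ hpow (by positivity) zero_le_one
              have h1 : δ ≤ η / (2 * (max Cs 0 + 1)) := min_le_right _ _
              rw [le_div_iff₀ (by positivity)] at h1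
              rw [← mul_div_assoc, div_le_one hη]
              linarith
            _ = r := one_mul r
        have := abs_mul (1 - r) b
        rw [abs_of_nonneg (by linarith : 0 ≤ 1 - r)] at this
        linarith [neg_abs_le ((1 - r) * b)]
      · rw [hb1 hne, mul_zero, zero_add]
        positivity
  · have hp1 : (1 : ℝ) ≤ p := by exact_mod_cast hp.one_le
    have hpR : (0 : ℝ) < p := by linarith
    set κ := min δ (min η η₁) with hκ
    have hκ1 : κ ≤ η₁ := (min_le_right _ _).trans (min_le_right _ _)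
    have hκ2 : κ ≤ η := (min_le_right _ _).trans (min_le_left _ _)
    have hκ3 : κ ≤ δ := min_le_left _ _
    have hX : 0 ≤ (p : ℝ) ^ (-(κ * i)) := by positivity
    have hmono : ∀ e : ℝ, κ ≤ e → (p : ℝ) ^ (-(e * i)) ≤ (p : ℝ) ^ (-(κ * i)) := fun e he =>
      Real.rpow_le_rpow_of_exponent_le hp1
        (neg_le_neg (mul_le_mul_of_nonneg_right he (Nat.cast_nonneg i)))
    have hGb : ‖gauss f a (p ^ i)‖ ≤ max C₁ 0 * (p : ℝ) ^ (-(κ * i)) :=
      (hG p i hp hi a ha).trans (mul_le_mul_of_nonneg_left (hmono η₁ hκ1) (le_max_right _ _))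
    have hCs : 0 ≤ max Cs 0 := le_max_right _ _
    have hC1 : 0 ≤ max C₁ 0 := le_max_right _ _
    rcases lt_or_ge p P with hlt | hle
    · rw [sum_range_succ', sum_eq_zero (fun j _ => by simp [loc, hgbad p hlt]), zero_add]
      have e : loc f g p a i 0 = gauss f a (p ^ i) := by
        rw [loc, hgbad p hlt, gauss_eq]; simp
      rw [e]
      refine hGb.trans (mul_le_mul_of_nonneg_right (by linarith) hX)
    · obtain ⟨b, hb, hb1, -, hn⟩ := (hdata p hp hle).loc_good (hggood p hle) hi ha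
      refine hn.trans ?_
      set r : ℝ := (p : ℝ) ^ (-δ) with hr
      have hr0 : 0 ≤ r := by positivity
      have hr1 : r ≤ 1 := Real.rpow_le_one_of_one_le_of_nonpos hp1 (by linarith)
      have h2 : |r ^ i| ≤ (p : ℝ) ^ (-(κ * i)) := by
        rw [abs_of_nonneg (by positivity), hr, ← Real.rpow_natCast, ← Real.rpow_mul hpR.le,
          neg_mul]
        exact hmono δ hκ3
      have h3 : |(1 - r) * b| ≤ max Cs 0 * (p : ℝ) ^ (-(κ * i)) := by
        rcases eq_or_ne i 1 with rfl | hne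
        · rw [max_eq_left (mul_nonneg hCs (by positivity))] at hb
          rw [abs_mul, abs_of_nonneg (by linarith : 0 ≤ 1 - r)]
          refine (mul_le_of_le_one_left (abs_nonneg _) (by linarith)).trans (hb.trans ?_)
          refine mul_le_mul_of_nonneg_left ?_ hCs
          have := hmono η hκ2
          simpa using this
        · rw [hb1 hne, mul_zero, abs_zero]
          positivity
      have h4 := mul_nonneg hC1 hX
      have h5 := mul_nonneg hCs hX
      linarith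

end

end Vale.Agent.P042.Loc
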