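import Vale.Agent.P042.Odd.Defs

/-!
Local weights for the power saving for polynomials with simple roots.

For each prime `p` a family `g p j` of functions of period `p ^ j` and mean zero on the fibres of
reduction modulo `p ^ (j - 1)`; the weight at level `D` is the sum over `d ≤ D` of their products.
-/

open Finset Polynomial

namespace Vale.Agent.P042.Loc

open Vale.Agent.P042.Upper

noncomputable section

/-- The contribution of level `j` to the twisted complete sum modulo `p ^ i`. -/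
def loc (f : ℤ[X]) (g : ℕ → ℕ → ℕ → ℝ) (p : ℕ) (a : ℤ) (i j : ℕ) : ℂ :=
  (∑ x ∈ range (p ^ i), (g p j x : ℂ) * Local.eq' (p ^ i) (a * f.eval (x : ℤ))) / (p ^ i : ℕ)

/-- Local weights making every Euler factor of `f` nonnegative with decay `p ^ (- κ i)`. -/
structure Weights (f : ℤ[X]) (g : ℕ → ℕ → ℕ → ℝ) (C κ : ℝ) : Prop where
  kappa_pos : 0 < κ
  zero : ∀ p n : ℕ, g p 0 n = 1
  periodic : ∀ p j n : ℕ, p.Prime → g p j (n + p ^ j) = g p j n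
  mean : ∀ p j c : ℕ, p.Prime → ∑ t ∈ range p, g p (j + 1) (c + p ^ j * t) = 0
  bound : ∀ p j n : ℕ, p.Prime → |g p j n| ≤ (p : ℝ) ^ (3 * j)
  real : ∀ p i : ℕ, p.Prime → 1 ≤ i → ∀ a : ℤ, ¬ (p : ℤ) ∣ a →
    (∑ j ∈ range (i + 1), loc f g p a i j).im = 0 ∧ 0 ≤ (∑ j ∈ range (i + 1), loc f g p a i j).re
  decay : ∀ p i : ℕ, p.Prime → 1 ≤ i → ∀ a : ℤ, ¬ (p : ℤ) ∣ a →
    ∑ j ∈ range (i + 1), ‖loc f g p a i j‖ ≤ C * (p : ℝ) ^ (-(κ * i))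

/-- The product of the local functions over the prime powers exactly dividing `d`. -/
def gd (g : ℕ → ℕ → ℕ → ℝ) (d n : ℕ) : ℝ := d.factorization.prod fun p j => g p j n

/-- The arithmetic factor: the means of the weights against the phases at `a / q`. -/
def Fac (f : ℤ[X]) (g : ℕ → ℕ → ℕ → ℝ) (D : ℕ) (a : ℤ) (q : ℕ) : ℂ :=
  ∑ d ∈ Icc 1 D,
    (∑ n ∈ range (d * q), (gd g d n : ℂ) * Local.eq' q (a * f.eval (n : ℤ))) / (d * q : ℕ)

/-- Symmetric low bias weights on the noncritical residues, at large primes. -/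
def HasSymWeights (h : ℤ[X]) : Prop :=
  ∃ (C η : ℝ) (P₀ : ℕ), 0 < η ∧ ∀ p : ℕ, p.Prime → P₀ ≤ p → ∃ ω : ℕ → ℝ,
    (∀ x, 0 ≤ ω x) ∧ ∑ x ∈ range p, ω x = p ∧
    (∀ x < p, (p : ℤ) ∣ h.derivative.eval (x : ℤ) → ω x = 0) ∧
    ∀ a : ℤ, ¬ (p : ℤ) ∣ a →
      (∑ x ∈ range p, (ω x : ℂ) * Local.eq' p (a * h.eval (x : ℤ))).im = 0 ∧
      ‖∑ x ∈ range p, (ω x : ℂ) * Local.eq' p (a * h.eval (x : ℤ))‖ ≤ C * (p : ℝ) ^ (1 - η)

/-- At every prime a simple root, of nonzero derivative modulo `p` for all large `p`. -/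
def SimpleRoots (h : ℤ[X]) : Prop :=
  (∀ p : ℕ, p.Prime → ∃ s : ℕ, ∀ j : ℕ, ∃ z : ℤ,
    (p : ℤ) ^ j ∣ h.eval z ∧ ¬ (p : ℤ) ^ (s + 1) ∣ h.derivative.eval z) ∧
  ∃ P₁ : ℕ, ∀ p : ℕ, p.Prime → P₁ ≤ p →
    ∃ z : ℤ, (p : ℤ) ∣ h.eval z ∧ ¬ (p : ℤ) ∣ h.derivative.eval z

end

end Vale.Agent.P042.Loc
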