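import Vale.Agent.P042.Loc.Defs

/-!
The arithmetic factor is a product of local factors up to `D` and is small above `D`.
-/

open Finset Polynomial

namespace Vale.Agent.P042.Loc

open Vale.Agent.P042.Upper

noncomputable section

theorem periodic_dvd {f : ℤ[X]} {g : ℕ → ℕ → ℕ → ℝ} {C κ : ℝ} (hW : Weights f g C κ) {p j m : ℕ}
    (hp : p.Prime) (hm : p ^ j ∣ m) (n : ℕ) : g p j (n + m) = g p j n := by
  obtain ⟨t, rfl⟩ := hm
  induction t with
  | zero => simp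
  | succ t ih => rw [mul_add, mul_one, ← add_assoc, hW.periodic p j _ hp, ih]

theorem gd_periodic_dvd {f : ℤ[X]} {g : ℕ → ℕ → ℕ → ℝ} {C κ : ℝ} (hW : Weights f g C κ) {d m : ℕ}
    (hm : d ∣ m) (n : ℕ) : gd g d (n + m) = gd g d n := by
  refine Finsupp.prod_congr fun p hp => ?_
  rw [Nat.support_factorization] at hp
  exact periodic_dvd hW (Nat.prime_of_mem_primeFactors hp) ((Nat.ordProj_dvd d p).trans hm) n

theorem gd_periodic {f : ℤ[X]} {g : ℕ → ℕ → ℕ → ℝ} {C κ : ℝ} (hW : Weights f g C κ) {d : ℕ}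
    (hd : 1 ≤ d) (n : ℕ) : gd g d (n + d) = gd g d n := by
  have : d ≠ 0 := by omega
  exact gd_periodic_dvd hW dvd_rfl n

theorem abs_gd_le {f : ℤ[X]} {g : ℕ → ℕ → ℕ → ℝ} {C κ : ℝ} (hW : Weights f g C κ) {d : ℕ}
    (hd : 1 ≤ d) (n : ℕ) : |gd g d n| ≤ (d : ℝ) ^ 3 := by
  have hd0 : d ≠ 0 := by omega
  rw [gd, Finsupp.prod, abs_prod, Nat.support_factorization]
  refine (prod_le_prod (fun p _ => abs_nonneg _) fun p hp =>
    hW.bound p _ n (Nat.prime_of_mem_primeFactors hp)).trans_eq ?_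
  have h1 : (d : ℝ) = ∏ p ∈ d.primeFactors, (p : ℝ) ^ d.factorization p := by
    conv_lhs => rw [← Nat.prod_factorization_pow_eq_self hd0]
    rw [Finsupp.prod, Nat.support_factorization, Nat.cast_prod]
    simp
  rw [h1, ← prod_pow]
  refine prod_congr rfl fun p _ => ?_
  rw [← pow_mul, mul_comm]

theorem gd_mul (g : ℕ → ℕ → ℕ → ℝ) {a b : ℕ} (h : Nat.Coprime a b) (n : ℕ) :
    gd g (a * b) n = gd g a n * gd g b n := by
  rw [gd, gd, gd, Nat.factorization_mul_of_coprime h, Finsupp.prod_add_index_of_disjoint]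
  simpa [Nat.support_factorization] using h.disjoint_primeFactors

theorem gd_one (g : ℕ → ℕ → ℕ → ℝ) (n : ℕ) : gd g 1 n = 1 := by simp [gd]

theorem gd_prime_pow {f : ℤ[X]} {g : ℕ → ℕ → ℕ → ℝ} {C κ : ℝ} (hW : Weights f g C κ) {p : ℕ}
    (hp : p.Prime) (j n : ℕ) : gd g (p ^ j) n = g p j n := by
  rw [gd, hp.factorization_pow, Finsupp.prod_single_index (hW.zero p n)]

/-- The phase `n ↦ e (a f (n) / q)`. -/
def ph (f : ℤ[X]) (a : ℤ) (q n : ℕ) : ℂ := Local.eq' q (a * f.eval (n : ℤ))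

theorem ph_add (f : ℤ[X]) (a : ℤ) {q m : ℕ} (hq : q ≠ 0) (hm : q ∣ m) (n : ℕ) :
    ph f a q (n + m) = ph f a q n := by
  refine Odd.eq'_eval_mod f a hq ?_
  push_cast
  simpa using (Int.natCast_dvd_natCast.2 hm)

theorem sum_periodic (P M : ℕ) (hP : P ≠ 0) (F : ℕ → ℂ) (hF : ∀ n m, P ∣ m → F (n + m) = F n) :
    ∑ n ∈ range (P * M), F n = (M : ℂ) * ∑ n ∈ range P, F n := by
  rw [Local.sum_range_split P M hP, mul_sum]
  refine sum_congr rfl fun u _ => ?_
  rw [sum_congr rfl fun y _ => hF u (P * y) (dvd_mul_right P y), sum_const, card_range, nsmul_eq_mul]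

theorem eq_mod {α : Type*} (F : ℕ → α) (m : ℕ) (hF : ∀ n k, m ∣ k → F (n + k) = F n) (n : ℕ) :
    F (n % m) = F n := by
  conv_rhs => rw [← Nat.mod_add_div n m]
  rw [hF _ _ (dvd_mul_right m _)]

theorem sum_divisors_coprime {M : Type*} [AddCommMonoid M] {m n : ℕ} (h : Nat.Coprime m n)
    (F : ℕ → M) :
    ∑ d ∈ (m * n).divisors, F d = ∑ x ∈ m.divisors, ∑ y ∈ n.divisors, F (x * y) := by
  rw [Nat.divisors_mul, Finset.mul_def, sum_image h.mul_injOn_divisors, sum_product]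

/-- The twisted mean at a divisor of the denominator. -/
def Mn (f : ℤ[X]) (g : ℕ → ℕ → ℕ → ℝ) (a : ℤ) (q d : ℕ) : ℂ :=
  (∑ n ∈ range q, (gd g d n : ℂ) * ph f a q n) / q

/-- Levels not dividing the denominator have mean zero. -/
theorem term_eq_zero {f : ℤ[X]} {g : ℕ → ℕ → ℕ → ℝ} {C κ : ℝ} (hW : Weights f g C κ) (a : ℤ)
    {d q : ℕ} (hd : d ≠ 0) (hq : q ≠ 0) (hdq : ¬ d ∣ q) :
    ∑ n ∈ range (d * q), (gd g d n : ℂ) * ph f a q n = 0 := by
  obtain ⟨p, hlt⟩ : ∃ p, q.factorization p < d.factorization p := by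
    by_contra hcon
    push Not at hcon
    exact hdq ((Nat.factorization_le_iff_dvd hd hq).1 fun p => hcon p)
  have hp : p.Prime := Nat.prime_of_mem_primeFactors (by
    rw [← Nat.support_factorization, Finsupp.mem_support_iff]
    exact Nat.ne_of_gt (Nat.zero_le _ |>.trans_lt hlt))
  obtain ⟨i, hi⟩ : ∃ i, d.factorization p = i + 1 := ⟨d.factorization p - 1, by omega⟩
  obtain ⟨j, r, hji, hr, rfl⟩ : ∃ j r, j ≤ i ∧ Nat.Coprime p r ∧ q = p ^ j * r :=
    ⟨q.factorization p, q / p ^ q.factorization p, by omega, Nat.coprime_ordCompl hp hq,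
      (Nat.ordProj_mul_ordCompl_eq_self q p).symm⟩
  obtain ⟨d', hd', rfl⟩ : ∃ d', Nat.Coprime p d' ∧ d = p ^ (i + 1) * d' :=
    ⟨d / p ^ (i + 1), hi ▸ Nat.coprime_ordCompl hp hd,
      by rw [← hi]; exact (Nat.ordProj_mul_ordCompl_eq_self d p).symm⟩
  set s : ℕ := p ^ i * (d' * r) with hs
  have hs0 : s ≠ 0 :=
    mul_ne_zero (pow_ne_zero _ hp.ne_zero)
      (mul_ne_zero (right_ne_zero_of_mul hd) (right_ne_zero_of_mul hq))
  have hqs : p ^ j * r ∣ s := mul_dvd_mul (pow_dvd_pow p hji) (dvd_mul_left r d')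
  have hds : d' ∣ s := Dvd.dvd.mul_left (dvd_mul_right d' r) _
  have hdps : p ^ (i + 1) * d' ∣ s * p := ⟨r, by rw [hs, pow_succ]; ring⟩
  rw [show p ^ (i + 1) * d' * (p ^ j * r) = s * p * p ^ j by rw [hs, pow_succ]; ring,
    sum_periodic (s * p) (p ^ j) (mul_ne_zero hs0 hp.ne_zero) _ (fun n m hm => by
      rw [gd_periodic_dvd hW (hdps.trans hm),
        ph_add f a hq ((hqs.trans (dvd_mul_right s p)).trans hm)]),
    Local.sum_range_split s p hs0]
  refine mul_eq_zero_of_right _ (sum_eq_zero fun c _ => ?_)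
  have hterm : ∀ t ∈ range p,
      (gd g (p ^ (i + 1) * d') (c + s * t) : ℂ) * ph f a (p ^ j * r) (c + s * t) =
        (g p (i + 1) (c + p ^ i * (d' * r * t % p)) : ℂ) *
          ((gd g d' c : ℂ) * ph f a (p ^ j * r) c) := by
    intro t _
    rw [gd_mul g (hd'.pow_left _), gd_prime_pow hW hp,
      gd_periodic_dvd hW (hds.trans (dvd_mul_right s t)),
      ph_add f a hq (hqs.trans (dvd_mul_right s t))]
    have h1 : g p (i + 1) (c + s * t) = g p (i + 1) (c + p ^ i * (d' * r * t % p)) := by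
      have h2 : c + s * t =
          c + p ^ i * (d' * r * t % p) + p ^ (i + 1) * (d' * r * t / p) := by
        conv_lhs => rw [hs, mul_assoc (p ^ i), ← Nat.mod_add_div (d' * r * t) p]
        rw [pow_succ]
        ring
      rw [h2, periodic_dvd hW hp (dvd_mul_right _ _)]
    rw [h1]
    push_cast
    ring
  rw [sum_congr rfl hterm, ← sum_mul,
    Odd.sum_unit hp.ne_zero ((Nat.Coprime.mul_right hd' hr).symm)
      (fun x => (g p (i + 1) (c + p ^ i * x) : ℂ))]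
  rw [← Complex.ofReal_sum, hW.mean p i c hp, Complex.ofReal_zero, zero_mul]

theorem term_eq_Mn {f : ℤ[X]} {g : ℕ → ℕ → ℕ → ℝ} {C κ : ℝ} (hW : Weights f g C κ) (a : ℤ)
    {d q : ℕ} (hq : q ≠ 0) (hdq : d ∣ q) :
    (∑ n ∈ range (d * q), (gd g d n : ℂ) * ph f a q n) / (d * q : ℕ) = Mn f g a q d := by
  have hd : d ≠ 0 := ne_zero_of_dvd_ne_zero hq hdq
  rw [mul_comm d q, sum_periodic q d hq _ (fun n m hm => by
      rw [gd_periodic_dvd hW (hdq.trans hm), ph_add f a hq hm]), Mn]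
  push_cast
  rw [mul_comm (q : ℂ) (d : ℂ), mul_div_mul_left _ _ (Nat.cast_ne_zero.2 hd)]

/-- Chinese remainder theorem for the twisted means. -/
theorem Mn_mul {f : ℤ[X]} {g : ℕ → ℕ → ℕ → ℝ} {C κ : ℝ} (hW : Weights f g C κ) (a : ℤ) {q r : ℕ}
    (h : Nat.Coprime q r) (hq : q ≠ 0) (hr : r ≠ 0) (ha : Int.gcd a (q * r : ℕ) = 1) :
    ∃ b c : ℤ, Int.gcd b q = 1 ∧ Int.gcd c r = 1 ∧ ∀ d₁ d₂ : ℕ, d₁ ∣ q → d₂ ∣ r →
      Mn f g a (q * r) (d₁ * d₂) = Mn f g b q d₁ * Mn f g c r d₂ := by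
  have hco : IsCoprime (q : ℤ) (r : ℤ) := Nat.Coprime.isCoprime h
  obtain ⟨s, t, hst⟩ := hco
  have hco' : IsCoprime a ((q : ℤ) * r) := by
    rw [Int.isCoprime_iff_gcd_eq_one, ← Nat.cast_mul]; exact ha
  have hb : IsCoprime (a * t) (q : ℤ) :=
    IsCoprime.mul_left hco'.of_mul_right_left ⟨r, s, by rw [← hst]; ring⟩
  have hc : IsCoprime (a * s) (r : ℤ) :=
    IsCoprime.mul_left hco'.of_mul_right_right ⟨q, t, by rw [← hst]; ring⟩
  refine ⟨a * t, a * s, Int.isCoprime_iff_gcd_eq_one.1 hb, Int.isCoprime_iff_gcd_eq_one.1 hc,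
    fun d₁ d₂ h1 h2 => ?_⟩
  rw [Mn, Mn, Mn, div_mul_div_comm, ← Local.sum_crt h hq hr, Nat.cast_mul]
  congr 1
  refine Finset.sum_congr rfl fun x _ => ?_
  rw [eq_mod (fun n => gd g d₁ n) q (fun n k hk => gd_periodic_dvd hW (h1.trans hk) n) x,
    eq_mod (fun n => gd g d₂ n) r (fun n k hk => gd_periodic_dvd hW (h2.trans hk) n) x,
    eq_mod (fun n => ph f (a * t) q n) q (fun n k hk => ph_add f _ hq hk n) x,
    eq_mod (fun n => ph f (a * s) r n) r (fun n k hk => ph_add f _ hr hk n) x,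
    gd_mul g ((h.coprime_dvd_left h1).coprime_dvd_right h2)]
  have hphase : ph f a (q * r) x = ph f (a * t) q x * ph f (a * s) r x := by
    simp only [ph, Local.eq', ← ee_add]
    congr 1
    have e1 : (q : ℝ) ≠ 0 := Nat.cast_ne_zero.2 hq
    have e2 : (r : ℝ) ≠ 0 := Nat.cast_ne_zero.2 hr
    have e3 : (s : ℝ) * q + t * r = 1 := by exact_mod_cast hst
    push_cast
    field_simp
    linear_combination (-(a : ℝ) * (f.eval (x : ℤ) : ℤ)) * e3
  rw [hphase]
  push_cast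
  ring

/-- The arithmetic factor without truncation. -/
def Fq (f : ℤ[X]) (g : ℕ → ℕ → ℕ → ℝ) (a : ℤ) (q : ℕ) : ℂ := ∑ d ∈ q.divisors, Mn f g a q d

/-- The absolute mass of the twisted means. -/
def Aq (f : ℤ[X]) (g : ℕ → ℕ → ℕ → ℝ) (a : ℤ) (q : ℕ) : ℝ := ∑ d ∈ q.divisors, ‖Mn f g a q d‖

theorem Mn_one (f : ℤ[X]) (g : ℕ → ℕ → ℕ → ℝ) (a : ℤ) : Mn f g a 1 1 = 1 := by
  rw [Mn, sum_range_one, gd_one, ph, Local.eq'_congr one_ne_zero (m := 0) (one_dvd _)]
  simp [Local.eq', ee_zero]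

theorem Mn_prime_pow {f : ℤ[X]} {g : ℕ → ℕ → ℕ → ℝ} {C κ : ℝ} (hW : Weights f g C κ) {p : ℕ}
    (hp : p.Prime) (a : ℤ) (i j : ℕ) : Mn f g a (p ^ i) (p ^ j) = loc f g p a i j := by
  rw [Mn, loc]
  congr 1
  exact sum_congr rfl fun x _ => by rw [gd_prime_pow hW hp]; rfl

theorem gcd_prime_pow {p i : ℕ} (hp : p.Prime) (hi : 0 < i) {a : ℤ}
    (ha : Int.gcd a (p ^ i : ℕ) = 1) : ¬ (p : ℤ) ∣ a := by
  intro hdvd
  have h1 : (p : ℤ) ∣ ((p ^ i : ℕ) : ℤ) := by exact_mod_cast dvd_pow_self p hi.ne'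
  have h2 : p ∣ Int.gcd a (p ^ i : ℕ) := Int.natCast_dvd_natCast.1 (Int.dvd_coe_gcd hdvd h1)
  rw [ha] at h2
  exact hp.not_dvd_one h2

theorem Fq_nonneg {f : ℤ[X]} {g : ℕ → ℕ → ℕ → ℝ} {C κ : ℝ} (hW : Weights f g C κ) :
    ∀ q : ℕ, 0 < q → ∀ a : ℤ, Int.gcd a q = 1 → (Fq f g a q).im = 0 ∧ 0 ≤ (Fq f g a q).re := by
  intro q
  induction q using Nat.recOnPosPrimePosCoprime with
  | zero => intro hn; omega
  | one => intro _ a _; simp [Fq, Mn_one]
  | prime_pow p i hp hi =>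
    intro _ a ha
    rw [Fq, Nat.sum_divisors_prime_pow hp]
    simp only [Mn_prime_pow hW hp]
    exact hW.real p i hp hi a (gcd_prime_pow hp hi ha)
  | coprime m n hm hn hmn ihm ihn =>
    intro _ a ha
    obtain ⟨b, c, hb, hc, hmul⟩ := Mn_mul hW a hmn (by omega) (by omega) ha
    have hF : Fq f g a (m * n) = Fq f g b m * Fq f g c n := by
      rw [Fq, Fq, Fq, sum_divisors_coprime hmn, sum_mul_sum]
      exact sum_congr rfl fun x hx => sum_congr rfl fun y hy =>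
        hmul x y (Nat.mem_divisors.1 hx).1 (Nat.mem_divisors.1 hy).1
    obtain ⟨h1, h2⟩ := ihm (by omega) b hb
    obtain ⟨h3, h4⟩ := ihn (by omega) c hc
    rw [hF, Complex.mul_im, Complex.mul_re, h1, h3]
    simp [mul_nonneg h2 h4]

theorem Aq_le {f : ℤ[X]} {g : ℕ → ℕ → ℕ → ℝ} {C κ : ℝ} (hW : Weights f g C κ) :
    ∃ C' : ℝ, 1 ≤ C' ∧ ∀ q : ℕ, 0 < q → ∀ a : ℤ, Int.gcd a q = 1 →
      Aq f g a q ≤ C' * (q : ℝ) ^ (-(κ / 2)) := by
  have hκ := hW.kappa_pos
  set K : ℝ := max C 1 with hK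
  have hK1 : 1 ≤ K := le_max_right _ _
  set P : ℕ := ⌈K ^ (2 / κ)⌉₊ with hP
  set w : ℕ → ℝ := fun p => if p < P then K else 1 with hw
  have hw1 : ∀ p, 1 ≤ w p := fun p => by simp only [hw]; split_ifs <;> linarith
  refine ⟨K ^ P, one_le_pow₀ hK1, fun q hq a ha => ?_⟩
  have key : ∀ q : ℕ, 0 < q → ∀ a : ℤ, Int.gcd a q = 1 →
      Aq f g a q ≤ (∏ p ∈ q.primeFactors, w p) * (q : ℝ) ^ (-(κ / 2)) := by
    intro q
    induction q using Nat.recOnPosPrimePosCoprime with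
    | zero => intro hn; omega
    | one => intro _ a _; simp [Aq, Mn_one]
    | prime_pow p i hp hi =>
      intro _ a ha
      rw [Aq, Nat.sum_divisors_prime_pow hp]
      simp only [Mn_prime_pow hW hp]
      refine (hW.decay p i hp hi a (gcd_prime_pow hp hi ha)).trans ?_
      rw [Nat.primeFactors_prime_pow hi.ne' hp, prod_singleton, Nat.cast_pow]
      have hp0 : (0 : ℝ) < p := by exact_mod_cast hp.pos
      have hp1 : (1 : ℝ) ≤ p := by exact_mod_cast hp.one_le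
      have hi1 : (1 : ℝ) ≤ i := by exact_mod_cast hi
      rw [← Real.rpow_natCast_mul hp0.le]
      have hsplit : (p : ℝ) ^ (-(κ * i)) =
          (p : ℝ) ^ (-((κ / 2) * i)) * (p : ℝ) ^ ((i : ℝ) * -(κ / 2)) := by
        rw [← Real.rpow_add hp0]; congr 1; ring
      rw [hsplit, ← mul_assoc]
      refine mul_le_mul_of_nonneg_right ?_ (by positivity)
      refine (mul_le_mul_of_nonneg_right (le_max_left C 1) (by positivity)).trans ?_
      simp only [hw]
      rw [Real.rpow_neg hp0.le, ← hK]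
      have h1 : 1 ≤ (p : ℝ) ^ (κ / 2 * i) := Real.one_le_rpow hp1 (by positivity)
      split_ifs with hpP
      · exact mul_le_of_le_one_right (by linarith) (inv_le_one_of_one_le₀ h1)
      · rw [← div_eq_mul_inv, div_le_one (by positivity)]
        have h2 : K ^ (2 / κ) ≤ p := (Nat.le_ceil _).trans (by exact_mod_cast not_lt.1 hpP)
        have h3 := Real.rpow_le_rpow (by positivity) h2 (show 0 ≤ κ / 2 by linarith)
        rw [← Real.rpow_mul (by linarith), show 2 / κ * (κ / 2) = 1 by field_simp,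
          Real.rpow_one] at h3
        refine h3.trans (Real.rpow_le_rpow_of_exponent_le hp1 ?_)
        exact le_mul_of_one_le_right (by linarith) hi1
    | coprime m n hm hn hmn ihm ihn =>
      intro _ a ha
      obtain ⟨b, c, hb, hc, hmul⟩ := Mn_mul hW a hmn (by omega) (by omega) ha
      have hA : Aq f g a (m * n) = Aq f g b m * Aq f g c n := by
        rw [Aq, Aq, Aq, sum_divisors_coprime hmn, sum_mul_sum]
        refine sum_congr rfl fun x hx => sum_congr rfl fun y hy => ?_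
        rw [hmul x y (Nat.mem_divisors.1 hx).1 (Nat.mem_divisors.1 hy).1, norm_mul]
      rw [hA, hmn.primeFactors_mul, prod_union hmn.disjoint_primeFactors, Nat.cast_mul,
        Real.mul_rpow (Nat.cast_nonneg _) (Nat.cast_nonneg _)]
      refine (mul_le_mul (ihm (by omega) b hb) (ihn (by omega) c hc)
        (sum_nonneg fun _ _ => norm_nonneg _) ?_).trans_eq (by ring)
      exact mul_nonneg (prod_nonneg fun p _ => le_trans zero_le_one (hw1 p)) (by positivity)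
  refine (key q hq a ha).trans (mul_le_mul_of_nonneg_right ?_ (by positivity))
  simp only [hw]
  rw [prod_ite, prod_const_one, mul_one, prod_const]
  refine pow_le_pow_right₀ hK1 ?_
  calc _ ≤ (range P).card := card_le_card fun p hp => mem_range.2 (mem_filter.1 hp).2
    _ = P := card_range P

theorem Fac_eq {f : ℤ[X]} {g : ℕ → ℕ → ℕ → ℝ} {C κ : ℝ} (hW : Weights f g C κ) (D : ℕ) (a : ℤ)
    {q : ℕ} (hq : q ≠ 0) :
    Fac f g D a q = ∑ d ∈ q.divisors.filter (· ≤ D), Mn f g a q d := by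
  rw [Fac]
  refine Eq.trans (sum_subset (fun d hd => ?_) fun d hd hd' => ?_).symm
    (sum_congr rfl fun d hd => ?_)
  · rw [mem_filter] at hd
    exact mem_Icc.2 ⟨Nat.pos_of_mem_divisors hd.1, hd.2⟩
  · rw [mem_Icc] at hd
    have hdq : ¬ d ∣ q := fun hdvd => hd' (mem_filter.2 ⟨Nat.mem_divisors.2 ⟨hdvd, hq⟩, hd.2⟩)
    have h0 := term_eq_zero hW a (show d ≠ 0 by omega) hq hdq
    simp only [ph] at h0
    rw [h0, zero_div]
  · rw [mem_filter, Nat.mem_divisors] at hd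
    exact term_eq_Mn hW a hq hd.1.1

theorem euler_main {f : ℤ[X]} {g : ℕ → ℕ → ℕ → ℝ} {C κ : ℝ} (hW : Weights f g C κ) :
    ∃ C' κ' : ℝ, 0 ≤ C' ∧ 0 < κ' ∧ ∀ D q : ℕ, 1 ≤ D → 1 ≤ q → ∀ a : ℤ, Int.gcd a q = 1 →
      ‖Fac f g D a q‖ ≤ C' ∧ (q ≤ D → (Fac f g D a q).im = 0 ∧ 0 ≤ (Fac f g D a q).re) ∧
      (D < q → ‖Fac f g D a q‖ ≤ C' * (D : ℝ) ^ (-κ')) ∧ Fac f g D 0 1 = 1 := by
  obtain ⟨C', hC', hA⟩ := Aq_le hW
  have hκ := hW.kappa_pos
  refine ⟨C', κ / 2, by linarith, by linarith, fun D q hD hq a ha => ?_⟩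
  have hq0 : q ≠ 0 := by omega
  have hqR : (1 : ℝ) ≤ q := by exact_mod_cast hq
  have hFA : ‖Fac f g D a q‖ ≤ C' * (q : ℝ) ^ (-(κ / 2)) := by
    rw [Fac_eq hW D a hq0]
    refine le_trans ((norm_sum_le _ _).trans
      (sum_le_sum_of_subset_of_nonneg (filter_subset _ _) fun _ _ _ => norm_nonneg _)) (hA q hq a ha)
  refine ⟨hFA.trans (mul_le_of_le_one_right (by linarith)
    (Real.rpow_le_one_of_one_le_of_nonpos hqR (by linarith))), fun hqD => ?_, fun hDq => ?_, ?_⟩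
  · rw [Fac_eq hW D a hq0, filter_true_of_mem (fun d hd => (Nat.divisor_le hd).trans hqD)]
    exact Fq_nonneg hW q hq a ha
  · refine hFA.trans (mul_le_mul_of_nonneg_left ?_ (by linarith))
    exact Real.rpow_le_rpow_of_nonpos (by exact_mod_cast hD) (by exact_mod_cast hDq.le)
      (by linarith)
  · rw [Fac_eq hW D 0 one_ne_zero, filter_true_of_mem (fun d hd => (Nat.divisor_le hd).trans hD),
      Nat.divisors_one, sum_singleton, Mn_one]

end

end Vale.Agent.P042.Loc
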