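import Vale.Agent.P042.Loc.Quadratic
import Vale.Agent.P042.Curve.Main

/-!
Intersective polynomials without repeated roots: simple roots and symmetric weights.
-/

open Finset Polynomial

namespace Vale.Agent.P042.Loc

open Vale.Agent.P042.Upper

noncomputable section

/-- A Bezout identity over the integers for `h` and its derivative. -/
theorem exists_bezout (h : ℤ[X]) (hsq : Squarefree (h.map (Int.castRingHom ℚ))) :
    ∃ (u v : ℤ[X]) (R : ℤ), R ≠ 0 ∧ u * h + v * derivative h = C R := by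
  obtain ⟨a, b, hab⟩ := PerfectField.separable_iff_squarefree.2 hsq
  obtain ⟨m, hm, hu⟩ := IsLocalization.integerNormalization_spec (nonZeroDivisors ℤ) a
  obtain ⟨n, hn, hv⟩ := IsLocalization.integerNormalization_spec (nonZeroDivisors ℤ) b
  set a' := IsLocalization.integerNormalization (nonZeroDivisors ℤ) a
  set b' := IsLocalization.integerNormalization (nonZeroDivisors ℤ) b
  rw [algebraMap_int_eq] at hu hv
  refine ⟨C n * a', C m * b', m * n,
    mul_ne_zero (nonZeroDivisors.ne_zero hm) (nonZeroDivisors.ne_zero hn),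
    map_injective (Int.castRingHom ℚ) Int.cast_injective ?_⟩
  rw [Polynomial.map_add, Polynomial.map_mul, Polynomial.map_mul, Polynomial.map_mul,
    Polynomial.map_mul, map_C, map_C, map_C, ← derivative_map, hu, hv, zsmul_eq_mul, zsmul_eq_mul]
  simp only [eq_intCast, map_mul, map_intCast]
  linear_combination (n : ℚ[X]) * (m : ℚ[X]) * hab

theorem squarefree_roots (h : ℤ[X]) (hsq : Squarefree (h.map (Int.castRingHom ℚ)))
    (hint : ∀ q : ℕ, 1 ≤ q → ∃ t : ℤ, (q : ℤ) ∣ h.eval t) : SimpleRoots h := by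
  obtain ⟨u, v, R, hR, hb⟩ := exists_bezout h hsq
  have key : ∀ m z : ℤ, m ∣ h.eval z → m ∣ h.derivative.eval z → m ∣ R := by
    intro m z h1 h2
    have e := congrArg (eval z) hb
    rw [eval_add, eval_mul, eval_mul, eval_C] at e
    rw [← e]
    exact dvd_add (h1.mul_left _) (h2.mul_left _)
  refine ⟨fun p hp => ⟨R.natAbs, fun j => ?_⟩, ⟨R.natAbs + 1, fun p hp hP => ?_⟩⟩
  · obtain ⟨z, hz⟩ := hint (p ^ (j + R.natAbs + 1)) (Nat.one_le_pow _ _ hp.pos)
    rw [Nat.cast_pow] at hz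
    refine ⟨z, (pow_dvd_pow _ (by omega)).trans hz, fun h2 => ?_⟩
    have h3 := key _ z ((pow_dvd_pow _ (by omega)).trans hz) h2
    have hlt : R.natAbs < p ^ (R.natAbs + 1) :=
      lt_of_le_of_lt (Nat.le_succ _) (Nat.lt_pow_self hp.one_lt)
    exact not_dvd_of_natAbs_lt hR hlt (by exact_mod_cast h3)
  · obtain ⟨z, hz⟩ := hint p hp.one_le
    exact ⟨z, hz, fun h2 => not_dvd_of_natAbs_lt hR (by omega) (key _ z hz h2)⟩

theorem sum_range_cast {M : Type*} [AddCommMonoid M] (p : ℕ) [NeZero p] (F : ZMod p → M) :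
    ∑ x ∈ range p, F (x : ZMod p) = ∑ z, F z :=
  Finset.sum_nbij' (fun x => (x : ZMod p)) ZMod.val (fun _ _ => Finset.mem_univ _)
    (fun z _ => Finset.mem_range.2 (ZMod.val_lt z))
    (fun _ hx => ZMod.val_natCast_of_lt (Finset.mem_range.1 hx))
    (fun z _ => ZMod.natCast_zmod_val z) (fun _ _ => rfl)

open scoped Classical in
/-- Distributing a weight on the values over the noncritical preimages. -/
theorem sum_lift {p : ℕ} [NeZero p] (f : (ZMod p)[X]) (ν : ZMod p → ℝ)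
    (hsupp : ∀ z, ν z ≠ 0 → ∃ x, (derivative f).eval x ≠ 0 ∧ f.eval x = z) (F : ZMod p → ℂ) :
    ∑ x, ((if (derivative f).eval x = 0 then 0 else ν (f.eval x) /
        #(univ.filter fun y => (derivative f).eval y ≠ 0 ∧ f.eval y = f.eval x) : ℝ) : ℂ) *
      F (f.eval x) = ∑ z, (ν z : ℂ) * F z := by
  rw [← Finset.sum_fiberwise (univ : Finset (ZMod p)) (fun x => f.eval x)]
  refine Finset.sum_congr rfl fun z _ => ?_
  by_cases hz : ν z = 0
  · rw [hz, Complex.ofReal_zero, zero_mul]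
    refine Finset.sum_eq_zero fun x hx => ?_
    simp [(Finset.mem_filter.1 hx).2, hz]
  obtain ⟨x₀, h1, h2⟩ := hsupp z hz
  set n := #(univ.filter fun y => (derivative f).eval y ≠ 0 ∧ f.eval y = z) with hn
  have hn0 : (n : ℂ) ≠ 0 := Nat.cast_ne_zero.2 (Finset.card_ne_zero.2 ⟨x₀, by simp [h1, h2]⟩)
  rw [Finset.sum_congr rfl (g := fun x => if (derivative f).eval x ≠ 0 then
      (ν z : ℂ) / n * F z else 0) fun x hx => ?_, ← Finset.sum_filter, Finset.filter_filter,
    Finset.sum_const, nsmul_eq_mul]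
  · simp only [and_comm (a := f.eval _ = z), ← hn]
    field_simp
  · have := (Finset.mem_filter.1 hx).2
    by_cases h : (derivative f).eval x = 0 <;> simp [h, this, ← hn]

/-- Symmetric weights only need a simple root modulo each large prime. -/
theorem simple_sym (h : ℤ[X]) (hk : 2 ≤ h.natDegree) (hr : SimpleRoots h) : HasSymWeights h := by
  classical
  obtain ⟨P₁, hP₁⟩ := hr.2
  obtain ⟨B, c, hc, hmain⟩ := Curve.exists_symmetric_weight h.natDegree hk
  have hl : h.leadingCoeff ≠ 0 :=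
    leadingCoeff_ne_zero.2 (by rintro rfl; simp at hk)
  refine ⟨B / c, 1 / 2, B + 1 + h.leadingCoeff.natAbs + P₁, by norm_num, fun p hp hP => ?_⟩
  have : Fact p.Prime := ⟨hp⟩
  set f : (ZMod p)[X] := h.map (Int.castRingHom (ZMod p)) with hf
  have hev : ∀ (g : ℤ[X]) (z : ℤ),
      (g.map (Int.castRingHom (ZMod p))).eval (z : ZMod p) = ((g.eval z : ℤ) : ZMod p) := by
    intro g z
    simp [eval_map, eval₂_at_intCast]
  have hevn : ∀ x : ℕ, f.eval (x : ZMod p) = ((h.eval (x : ℤ) : ℤ) : ZMod p) ∧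
      (derivative f).eval (x : ZMod p) = ((h.derivative.eval (x : ℤ) : ℤ) : ZMod p) := by
    intro x
    refine ⟨by simp [hf], ?_⟩
    rw [hf, derivative_map]
    simp
  have hlp : Int.castRingHom (ZMod p) h.leadingCoeff ≠ 0 := by
    rw [eq_intCast, Ne, ZMod.intCast_zmod_eq_zero_iff_dvd]
    exact not_dvd_of_natAbs_lt hl (by omega)
  have hdeg : f.natDegree = h.natDegree := natDegree_map_of_leadingCoeff_ne_zero _ hlp
  have hroot : ∃ z, f.eval z = 0 ∧ (derivative f).eval z ≠ 0 := by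
    obtain ⟨z, hz, hz'⟩ := hP₁ p hp (by omega)
    refine ⟨(z : ZMod p), ?_, ?_⟩
    · rw [hf, hev, ZMod.intCast_zmod_eq_zero_iff_dvd]; exact hz
    · rw [hf, derivative_map, hev, Ne, ZMod.intCast_zmod_eq_zero_iff_dvd]; exact hz'
  obtain ⟨ν, hsym, hsupp, hbd, hmass, hfour⟩ := hmain p (by omega) f hdeg hroot
  have hlift := sum_lift f ν (fun z hz => (hsupp z hz).1)
  set w : ZMod p → ℝ := fun x => if (derivative f).eval x = 0 then 0 else ν (f.eval x) /
    #(univ.filter fun y => (derivative f).eval y ≠ 0 ∧ f.eval y = f.eval x) with hw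
  have hw0 : ∀ x, 0 ≤ w x := fun x => by
    simp only [hw]
    split
    · exact le_rfl
    · exact div_nonneg (hbd _).1 (Nat.cast_nonneg _)
  set M := ∑ z, ν z with hM
  have hM0 : 0 < M := lt_of_lt_of_le (mul_pos hc (Nat.cast_pos.2 hp.pos)) hmass
  have hp0 : (0 : ℝ) < p := Nat.cast_pos.2 hp.pos
  refine ⟨fun x => (p : ℝ) / M * w (x : ZMod p), fun x => mul_nonneg (by positivity) (hw0 _),
    ?_, ?_, fun a ha => ?_⟩
  · have h1 := hlift (fun _ => 1)
    simp only [mul_one] at h1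
    have h1' : ∑ x, w x = M := by exact_mod_cast h1
    rw [sum_range_cast p (fun x => (p : ℝ) / M * w x), ← Finset.mul_sum, h1',
      div_mul_cancel₀ _ hM0.ne']
  · intro x _ hx
    have : (derivative f).eval (x : ZMod p) = 0 := by
      rw [(hevn x).2, ZMod.intCast_zmod_eq_zero_iff_dvd]; exact hx
    simp [hw, this]
  have hψ : (ZMod.stdAddChar (N := p)).mulShift (a : ZMod p) ≠ 1 :=
    ZMod.isPrimitive_stdAddChar p (by rwa [Ne, ZMod.intCast_zmod_eq_zero_iff_dvd])
  set ψ := (ZMod.stdAddChar (N := p)).mulShift (a : ZMod p) with hψdef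
  set Z : ℂ := ∑ z, (ν z : ℂ) * ψ z with hZ
  have hsum : ∑ x ∈ range p, (((p : ℝ) / M * w (x : ZMod p) : ℝ) : ℂ) *
      Local.eq' p (a * h.eval (x : ℤ)) = (((p : ℝ) / M : ℝ) : ℂ) * Z := by
    have h1 : ∀ x : ℕ, Local.eq' p (a * h.eval (x : ℤ)) = ψ (f.eval (x : ZMod p)) := by
      intro x
      rw [eq'_eq_stdAddChar, hψdef, AddChar.mulShift_apply, (hevn x).1, Int.cast_mul]
    simp only [h1, Complex.ofReal_mul, mul_assoc]
    rw [← Finset.mul_sum, sum_range_cast p (fun x => ((w x : ℝ) : ℂ) * ψ (f.eval x)), hZ,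
      ← hlift ψ]
  have hreal : starRingEnd ℂ Z = Z := by
    rw [hZ, map_sum]
    refine Fintype.sum_equiv (Equiv.neg (ZMod p)) _ _ fun z => ?_
    rw [map_mul, Complex.conj_ofReal, ← AddChar.map_neg_eq_conj, Equiv.neg_apply, hsym]
  rw [hsum]
  refine ⟨?_, ?_⟩
  · rw [Complex.mul_im, Complex.ofReal_im, zero_mul, add_zero,
      Complex.conj_eq_iff_im.1 hreal, mul_zero]
  · rw [norm_mul, Complex.norm_real, Real.norm_of_nonneg (by positivity)]
    have hpc : (p : ℝ) / M ≤ 1 / c := by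
      rw [div_le_div_iff₀ hM0 hc]; linarith
    calc (p : ℝ) / M * ‖Z‖ ≤ 1 / c * (B * Real.sqrt p) :=
          mul_le_mul hpc (hfour ψ hψ) (norm_nonneg _) (by positivity)
      _ = B / c * (p : ℝ) ^ (1 - 1 / 2 : ℝ) := by rw [Real.sqrt_eq_rpow]; norm_num; ring

theorem squarefree_sym (h : ℤ[X]) (hk : 2 ≤ h.natDegree)
    (hsq : Squarefree (h.map (Int.castRingHom ℚ)))
    (hint : ∀ q : ℕ, 1 ≤ q → ∃ t : ℤ, (q : ℤ) ∣ h.eval t) : HasSymWeights h :=
  simple_sym h hk (squarefree_roots h hsq hint)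

/-- Splitting off the part of `g` coprime to `f`. -/
theorem exists_coprime_part {K : Type*} [Field K] [DecidableEq K] (f : K[X]) :
    ∀ (n : ℕ) (g : K[X]), g.natDegree ≤ n → g ≠ 0 →
      ∃ (g₁ w : K[X]) (m : ℕ), g = g₁ * w ∧ IsCoprime g₁ f ∧ w ∣ f ^ m := by
  intro n
  induction n with
  | zero =>
    intro g hn hg
    refine ⟨g, 1, 0, (mul_one g).symm, ?_, one_dvd _⟩
    obtain ⟨c, rfl⟩ : ∃ c, g = C c := ⟨g.coeff 0, eq_C_of_natDegree_le_zero hn⟩
    have hc : c ≠ 0 := fun hc => hg (by rw [hc, C_0])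
    exact ⟨C c⁻¹, 0, by rw [zero_mul, add_zero, ← C_mul, inv_mul_cancel₀ hc, C_1]⟩
  | succ n ih =>
    intro g hn hg
    by_cases hco : IsCoprime g f
    · exact ⟨g, 1, 0, (mul_one g).symm, hco, one_dvd _⟩
    obtain ⟨g₂, hg₂⟩ := EuclideanDomain.gcd_dvd_left g f
    set e := EuclideanDomain.gcd g f with he
    have he0 : e ≠ 0 := fun h0 => hg (by rw [hg₂, h0, zero_mul])
    have hg20 : g₂ ≠ 0 := fun h0 => hg (by rw [hg₂, h0, mul_zero])
    have hed : 1 ≤ e.natDegree := by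
      by_contra hlt
      refine hco (EuclideanDomain.gcd_isUnit_iff.1 ?_)
      rw [← he, Polynomial.isUnit_iff_degree_eq_zero, degree_eq_natDegree he0]
      norm_cast
      omega
    have hd : g₂.natDegree ≤ n := by
      rw [hg₂, natDegree_mul he0 hg20] at hn
      omega
    obtain ⟨g₁, w, m, rfl, hc, hw⟩ := ih g₂ hd hg20
    refine ⟨g₁, w * e, m + 1, by rw [hg₂]; ring, hc, ?_⟩
    rw [pow_succ]
    exact mul_dvd_mul hw (EuclideanDomain.gcd_dvd_right g f)

/-- At a simple root in the `p`-adic integers the derivative divides a fixed nonzero integer. -/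
theorem exists_deriv_dvd (h : ℤ[X]) (hh : h ≠ 0) :
    ∃ R : ℤ, R ≠ 0 ∧ ∀ (p : ℕ) [Fact p.Prime] (z : ℤ_[p]), aeval z h = 0 →
      aeval z (derivative h) ≠ 0 → aeval z (derivative h) ∣ (R : ℤ_[p]) := by
  classical
  set f : ℚ[X] := (derivative h).map (algebraMap ℤ ℚ) with hf
  have hmap : h.map (algebraMap ℤ ℚ) ≠ 0 :=
    (Polynomial.map_ne_zero_iff (Int.cast_injective (α := ℚ))).2 hh
  obtain ⟨g₁, w, m, hg, ⟨a, b, hab⟩, hw⟩ := exists_coprime_part f _ _ le_rfl hmap
  obtain ⟨l, hl, hl'⟩ := IsLocalization.integerNormalization_spec (nonZeroDivisors ℤ) b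
  set b' := IsLocalization.integerNormalization (nonZeroDivisors ℤ) b
  refine ⟨l, nonZeroDivisors.ne_zero hl, fun p _ z hz hz' => ⟨aeval z b', ?_⟩⟩
  have hcoe : ∀ q : ℤ[X], ((aeval z q : ℤ_[p]) : ℚ_[p]) =
      aeval (z : ℚ_[p]) (q.map (algebraMap ℤ ℚ)) := by
    intro q
    rw [aeval_map_algebraMap]
    exact (Polynomial.aeval_algHom_apply (PadicInt.Coe.ringHom (p := p)).toIntAlgHom z q).symm
  have hfz : aeval (z : ℚ_[p]) f ≠ 0 := by
    rw [hf, ← hcoe]
    simpa using hz'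
  have hg1 : aeval (z : ℚ_[p]) g₁ = 0 := by
    have h0 : aeval (z : ℚ_[p]) (g₁ * w) = 0 := by rw [← hg, ← hcoe, hz, PadicInt.coe_zero]
    rw [map_mul] at h0
    refine (mul_eq_zero.1 h0).resolve_right fun hw0 => hfz ?_
    obtain ⟨r, hr⟩ := hw
    have h1 := congrArg (aeval (z : ℚ_[p])) hr
    rw [map_pow, map_mul, hw0, zero_mul] at h1
    exact eq_zero_of_pow_eq_zero h1
  have h2 := congrArg (aeval (z : ℚ_[p])) hab
  rw [map_add, map_mul, map_mul, hg1, mul_zero, zero_add, map_one] at h2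
  apply PadicInt.ext
  rw [PadicInt.coe_mul, PadicInt.coe_intCast, hcoe, hcoe, hl', ← hf, map_zsmul, zsmul_eq_mul]
  linear_combination -(l : ℚ_[p]) * h2

/-- A simple root in every `ℤ_p` gives simple roots, uniformly in large `p`. -/
theorem padic_roots (h : ℤ[X]) (hh : h ≠ 0)
    (hz : ∀ (p : ℕ) [Fact p.Prime], ∃ z : ℤ_[p], aeval z h = 0 ∧ aeval z h.derivative ≠ 0) :
    SimpleRoots h := by
  have trans : ∀ (p : ℕ) [Fact p.Prime] (z : ℤ_[p]) (n : ℕ) (q : ℤ[X]),
      (p : ℤ_[p]) ^ n ∣ aeval z q - ((q.eval (z.appr n : ℤ) : ℤ) : ℤ_[p]) := by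
    intro p _ z n q
    have h1 : (p : ℤ_[p]) ^ n ∣ z - (z.appr n : ℤ_[p]) :=
      Ideal.mem_span_singleton.1 (PadicInt.appr_spec n z)
    have h2 := h1.trans (Polynomial.sub_dvd_eval_sub z _ (q.map (algebraMap ℤ ℤ_[p])))
    rw [eval_map_algebraMap, eval_map_algebraMap] at h2
    convert h2 using 2
    exact (aeval_algebraMap_apply_eq_algebraMap_eval (A := ℤ_[p]) (z.appr n : ℤ) q).symm.trans
      (by simp)
  obtain ⟨R, hR, hdvd⟩ := exists_deriv_dvd h hh
  refine ⟨fun p hp => ?_, ⟨R.natAbs + 1, fun p hp hP => ?_⟩⟩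
  · have : Fact p.Prime := ⟨hp⟩
    obtain ⟨z, h0, h1⟩ := hz p
    obtain ⟨s, hs⟩ : ∃ s, ¬ (p : ℤ_[p]) ^ (s + 1) ∣ aeval z (derivative h) := by
      refine ⟨(aeval z (derivative h)).valuation, fun hd => ?_⟩
      rw [← Ideal.mem_span_singleton, PadicInt.mem_span_pow_iff_le_valuation _ h1] at hd
      omega
    refine ⟨s, fun j => ⟨(z.appr (j + (s + 1)) : ℤ), ?_, fun hd => hs ?_⟩⟩
    · have h2 := trans p z (j + (s + 1)) h
      rw [h0, zero_sub, dvd_neg, PadicInt.pow_p_dvd_int_iff] at h2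
      exact (pow_dvd_pow _ (by omega)).trans h2
    · rw [← PadicInt.pow_p_dvd_int_iff] at hd
      have h2 := (pow_dvd_pow (p : ℤ_[p]) (by omega : s + 1 ≤ j + (s + 1))).trans
        (trans p z (j + (s + 1)) (derivative h))
      simpa using dvd_add h2 hd
  · have : Fact p.Prime := ⟨hp⟩
    obtain ⟨z, h0, h1⟩ := hz p
    refine ⟨(z.appr 1 : ℤ), ?_, fun hd => ?_⟩
    · have h2 := trans p z 1 h
      rw [h0, zero_sub, dvd_neg, PadicInt.pow_p_dvd_int_iff, pow_one] at h2
      exact h2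
    · rw [← pow_one (p : ℤ), ← PadicInt.pow_p_dvd_int_iff] at hd
      have h2 : (p : ℤ_[p]) ^ 1 ∣ aeval z (derivative h) := by
        simpa using dvd_add (trans p z 1 (derivative h)) hd
      have h3 := h2.trans (hdvd p z h0 h1)
      rw [PadicInt.pow_p_dvd_int_iff, pow_one] at h3
      exact not_dvd_of_natAbs_lt hR (by omega) h3

end

end Vale.Agent.P042.Loc
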