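import Vale.Agent.P042.Loc.Defs
import Vale.Agent.P042.Loc.Circle

/-!
Quadratics with nonzero discriminant have symmetric weights, and simple roots when intersective.
-/

open Finset Polynomial

namespace Vale.Agent.P042.Loc

open Vale.Agent.P042.Upper

noncomputable section

theorem quadratic_evals (h : ℤ[X]) (hdeg : h.natDegree = 2) (z : ℤ) :
    h.eval z = h.coeff 2 * z ^ 2 + h.coeff 1 * z + h.coeff 0 ∧
      h.derivative.eval z = 2 * h.coeff 2 * z + h.coeff 1 := by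
  have e := Polynomial.eq_quadratic_of_degree_le_two (p := h)
    (Polynomial.natDegree_le_iff_degree_le.1 hdeg.le)
  refine ⟨?_, ?_⟩
  · conv_lhs => rw [e]
    simp
  · conv_lhs => rw [e]
    simp only [derivative_add, derivative_C_mul, derivative_X_pow, derivative_X, derivative_C,
      eval_add, eval_mul, eval_pow, eval_C, eval_X, eval_one]
    simp
    ring

theorem not_dvd_of_natAbs_lt {d : ℤ} (hd : d ≠ 0) {m : ℕ} (hm : d.natAbs < m) : ¬ (m : ℤ) ∣ d :=
  fun h => absurd (Nat.le_of_dvd (Int.natAbs_pos.2 hd) (Int.natCast_dvd.1 h)) (by omega)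

theorem eq'_eq_stdAddChar (p : ℕ) [NeZero p] (n : ℤ) :
    Local.eq' p n = ZMod.stdAddChar (n : ZMod p) := by
  rw [ZMod.stdAddChar_coe, Local.eq', ee]
  congr 1
  push_cast
  ring

theorem quadratic_sym (h : ℤ[X]) (hdeg : h.natDegree = 2)
    (hdisc : h.coeff 1 ^ 2 - 4 * h.coeff 2 * h.coeff 0 ≠ 0) : HasSymWeights h := by
  classical
  set Δ : ℤ := h.coeff 1 ^ 2 - 4 * h.coeff 2 * h.coeff 0 with hΔ
  have hA0 : h.coeff 2 ≠ 0 := by
    rw [← hdeg]
    exact Polynomial.leadingCoeff_ne_zero.2 (by rintro rfl; simp at hdeg)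
  refine ⟨20, 1 / 4, 11 + (h.coeff 2).natAbs + Δ.natAbs, by norm_num, fun p hp hP => ?_⟩
  have : Fact p.Prime := ⟨hp⟩
  have h2 : (2 : ZMod p) ≠ 0 := two_ne_zero_of_lt (by omega)
  have hA : (h.coeff 2 : ZMod p) ≠ 0 := by
    rw [Ne, ZMod.intCast_zmod_eq_zero_iff_dvd]
    exact not_dvd_of_natAbs_lt hA0 (by omega)
  have hD : (Δ : ZMod p) ≠ 0 := by
    rw [Ne, ZMod.intCast_zmod_eq_zero_iff_dvd]
    exact not_dvd_of_natAbs_lt hdisc (by omega)
  set A : ZMod p := (h.coeff 2 : ZMod p) with hAdef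
  set B : ZMod p := (h.coeff 1 : ZMod p) with hBdef
  set S : Finset (ZMod p × ZMod p) := circ' (2 * (Δ : ZMod p)) with hSdef
  have hR : 2 * (Δ : ZMod p) ≠ 0 := mul_ne_zero h2 hD
  have hsub : S ⊆ circ (2 * (Δ : ZMod p)) := Finset.filter_subset _ _
  set U : ℕ → ZMod p := fun x => 2 * A * (x : ZMod p) + B with hU
  have hA2 : 2 * A ≠ 0 := mul_ne_zero h2 hA
  have hfib : ∀ F : ZMod p → ℂ,
      ∑ x ∈ range p, (#(S.filter fun v => v.1 = U x) : ℂ) * F (U x) = ∑ v ∈ S, F v.1 := by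
    intro F
    rw [← Finset.sum_fiberwise S Prod.fst (fun v => F v.1)]
    refine Finset.sum_nbij' U (fun z => ((z - B) / (2 * A)).val) ?_ ?_ ?_ ?_ ?_
    · exact fun x _ => Finset.mem_univ _
    · exact fun z _ => Finset.mem_range.2 (ZMod.val_lt _)
    · intro x hx
      rw [hU]
      simp only [add_sub_cancel_right]
      rw [mul_div_cancel_left₀ _ hA2, ZMod.val_natCast_of_lt (Finset.mem_range.1 hx)]
    · intro z _
      rw [hU]
      simp only [ZMod.natCast_val, ZMod.cast_id]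
      rw [mul_div_cancel₀ _ hA2, sub_add_cancel]
    · intro x _
      rw [Finset.sum_congr rfl (fun v hv => congrArg F (Finset.mem_filter.1 hv).2),
        Finset.sum_const, nsmul_eq_mul]
  have hM : (p : ℝ) / 2 ≤ (#S : ℝ) := by
    have h1 := card_circ_ge (2 * (Δ : ZMod p)) hR h2
    have h3 := card_circ_diff (2 * (Δ : ZMod p))
    rw [← hSdef, Finset.card_sdiff_of_subset hsub] at h3
    have h4 : p ≤ 2 * #S := by omega
    have h5 : (p : ℝ) ≤ 2 * (#S : ℝ) := by exact_mod_cast h4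
    linarith
  have hp0 : (0 : ℝ) < p := by exact_mod_cast hp.pos
  have hM0 : (0 : ℝ) < #S := lt_of_lt_of_le (by linarith) hM
  refine ⟨fun x => (p : ℝ) / #S * #(S.filter fun v => v.1 = U x), fun x => by positivity,
    ?_, ?_, fun a ha => ?_⟩
  · have h1 := hfib (fun _ => 1)
    simp only [mul_one, Finset.sum_const, nsmul_eq_mul] at h1
    have h1' : ∑ x ∈ range p, (#(S.filter fun v => v.1 = U x) : ℝ) = #S := by exact_mod_cast h1
    rw [← Finset.mul_sum, h1', div_mul_cancel₀ _ hM0.ne']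
  · intro x _ hx
    have hz : U x = 0 := by
      rw [(quadratic_evals h hdeg _).2, ← ZMod.intCast_zmod_eq_zero_iff_dvd] at hx
      push_cast at hx
      exact hx
    have he : S.filter (fun v => v.1 = U x) = ∅ := by
      rw [Finset.filter_eq_empty_iff]
      intro v hv hvx
      exact (Finset.mem_filter.1 hv).2.1 (hvx.trans hz)
    simp [he]
  set t : ZMod p := (a : ZMod p) / (4 * A) with ht
  have h4 : (4 : ZMod p) * A ≠ 0 := by
    rw [show (4 : ZMod p) = 2 * 2 by norm_num]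
    exact mul_ne_zero (mul_ne_zero h2 h2) hA
  have ha0 : t ≠ 0 := by
    refine div_ne_zero ?_ h4
    rw [Ne, ZMod.intCast_zmod_eq_zero_iff_dvd]
    exact ha
  have hphase : ∀ x : ℕ, Local.eq' p (a * h.eval (x : ℤ)) =
      ZMod.stdAddChar (t * (U x ^ 2 - (Δ : ZMod p))) := by
    intro x
    rw [eq'_eq_stdAddChar]
    congr 1
    rw [ht, div_mul_eq_mul_div, eq_div_iff h4, (quadratic_evals h hdeg _).1, hU, hΔ, hAdef, hBdef]
    push_cast
    ring
  set Z : ℂ := ∑ v ∈ S, ZMod.stdAddChar (t / 2 * (v.1 ^ 2 - v.2 ^ 2)) with hZ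
  have hsum : ∑ x ∈ range p,
      (((p : ℝ) / #S * #(S.filter fun v => v.1 = U x) : ℝ) : ℂ) *
        Local.eq' p (a * h.eval (x : ℤ)) = (((p : ℝ) / #S : ℝ) : ℂ) * Z := by
    simp only [hphase, Complex.ofReal_mul, Complex.ofReal_natCast, mul_assoc]
    rw [← Finset.mul_sum, hfib (fun u => ZMod.stdAddChar (t * (u ^ 2 - (Δ : ZMod p)))), hZ]
    congr 1
    refine Finset.sum_congr rfl fun v hv => congrArg ZMod.stdAddChar ?_
    have hvc := mem_circ.1 (hsub hv)
    rw [show v.1 ^ 2 - v.2 ^ 2 = 2 * (v.1 ^ 2 - (Δ : ZMod p)) by linear_combination -hvc,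
      ← mul_assoc, div_mul_cancel₀ _ h2]
  have hreal : starRingEnd ℂ Z = Z := by
    rw [hZ, map_sum]
    refine Finset.sum_nbij' Prod.swap Prod.swap ?_ ?_ (fun v _ => Prod.swap_swap v)
      (fun v _ => Prod.swap_swap v) (fun v _ => ?_)
    · intro v hv
      simp only [hSdef, circ', Finset.mem_filter, mem_circ] at hv ⊢
      exact ⟨by simpa [add_comm] using hv.1, hv.2.2, hv.2.1⟩
    · intro v hv
      simp only [hSdef, circ', Finset.mem_filter, mem_circ] at hv ⊢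
      exact ⟨by simpa [add_comm] using hv.1, hv.2.2, hv.2.1⟩
    · rw [← AddChar.map_neg_eq_conj]
      congr 1
      simp only [Prod.fst_swap, Prod.snd_swap]
      ring
  rw [hsum]
  refine ⟨?_, ?_⟩
  · rw [Complex.mul_im, Complex.ofReal_im, zero_mul, add_zero,
      Complex.conj_eq_iff_im.1 hreal, mul_zero]
  · have hfull := circle_sq_bound (p := p) (by omega) (2 * (Δ : ZMod p)) (t / 2) hR
      (div_ne_zero ha0 h2)
    rw [← Finset.sum_sdiff hsub, ← hZ] at hfull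
    have hd : ‖∑ v ∈ circ (2 * (Δ : ZMod p)) \ S,
        ZMod.stdAddChar (t / 2 * (v.1 ^ 2 - v.2 ^ 2))‖ ≤ 4 := by
      refine (norm_sum_le _ _).trans ?_
      simp only [AddChar.norm_apply, Finset.sum_const, nsmul_eq_mul, mul_one]
      rw [hSdef]
      exact Nat.cast_le_ofNat.2 (card_circ_diff (2 * (Δ : ZMod p)))
    have h8 := norm_le_add_norm_add Z
      (∑ v ∈ circ (2 * (Δ : ZMod p)) \ S, ZMod.stdAddChar (t / 2 * (v.1 ^ 2 - v.2 ^ 2)))
    rw [add_comm] at hfull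
    have h9 : (1 : ℝ) ≤ (p : ℝ) ^ (3 / 4 : ℝ) :=
      Real.one_le_rpow (by exact_mod_cast hp.one_le) (by norm_num)
    rw [norm_mul, Complex.norm_real, Real.norm_of_nonneg (by positivity)]
    have hc : (p : ℝ) / #S ≤ 2 := by rw [div_le_iff₀ hM0]; linarith
    calc (p : ℝ) / #S * ‖Z‖ ≤ 2 * (10 * (p : ℝ) ^ (3 / 4 : ℝ)) :=
          mul_le_mul hc (by linarith) (norm_nonneg _) (by norm_num)
      _ = 20 * (p : ℝ) ^ (1 - 1 / 4 : ℝ) := by norm_num; ring

theorem quadratic_roots (h : ℤ[X]) (hdeg : h.natDegree = 2)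
    (hdisc : h.coeff 1 ^ 2 - 4 * h.coeff 2 * h.coeff 0 ≠ 0)
    (hint : ∀ q : ℕ, 1 ≤ q → ∃ t : ℤ, (q : ℤ) ∣ h.eval t) : SimpleRoots h := by
  set Δ : ℤ := h.coeff 1 ^ 2 - 4 * h.coeff 2 * h.coeff 0 with hΔ
  have key : ∀ m z : ℤ, m ∣ h.eval z → m ∣ h.derivative.eval z → m ∣ Δ := by
    intro m z h1 h2
    have e : Δ = h.derivative.eval z * h.derivative.eval z - 4 * h.coeff 2 * h.eval z := by
      rw [(quadratic_evals h hdeg z).1, (quadratic_evals h hdeg z).2, hΔ]; ring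
    rw [e]
    exact dvd_sub (h2.mul_left _) (h1.mul_left _)
  refine ⟨fun p hp => ⟨Δ.natAbs, fun j => ?_⟩, ⟨Δ.natAbs + 1, fun p hp hP => ?_⟩⟩
  · obtain ⟨z, hz⟩ := hint (p ^ (j + Δ.natAbs + 1)) (Nat.one_le_pow _ _ hp.pos)
    rw [Nat.cast_pow] at hz
    refine ⟨z, (pow_dvd_pow _ (by omega)).trans hz, fun h2 => ?_⟩
    have h3 := key _ z ((pow_dvd_pow _ (by omega)).trans hz) h2
    have hlt : Δ.natAbs < p ^ (Δ.natAbs + 1) :=
      lt_of_le_of_lt (Nat.le_succ _) (Nat.lt_pow_self hp.one_lt)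
    exact not_dvd_of_natAbs_lt hdisc hlt (by exact_mod_cast h3)
  · obtain ⟨z, hz⟩ := hint p hp.one_le
    exact ⟨z, hz, fun h2 => not_dvd_of_natAbs_lt hdisc (by omega) (key _ z hz h2)⟩

end

end Vale.Agent.P042.Loc
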