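import Vale.Agent.P042.Loc.Defs
import Vale.Agent.P042.Odd.Approx

/-!
Exponential sums with periodic weights over dyadic blocks.
-/

open Finset Polynomial

namespace Vale.Agent.P042.Loc

open Vale.Agent.P042.Upper

noncomputable section

/-- The partial sums of a periodic sequence of mean zero are bounded. -/
theorem periodic_window (v : ℕ → ℂ) {L : ℕ} (hL : 1 ≤ L) (hper : ∀ n, v (n + L) = v n)
    (hsum : ∑ n ∈ range L, v n = 0) {G : ℝ} (hv : ∀ n, ‖v n‖ ≤ G) (c t : ℕ) :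
    ‖∑ n ∈ range t, v (c + n)‖ ≤ L * G := by
  have hfull : ∀ c : ℕ, ∑ n ∈ range L, v (c + n) = 0 := by
    intro c
    induction c with
    | zero => simpa using hsum
    | succ c ih =>
      have h1 := sum_range_succ (fun n => v (c + n)) L
      have h2 := sum_range_succ' (fun n => v (c + n)) L
      simp only [Nat.add_zero] at h2
      rw [h1, ih, hper, zero_add] at h2
      have h3 : ∑ n ∈ range L, v (c + (n + 1)) = 0 :=
        add_right_cancel (h2.symm.trans (zero_add _).symm)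
      rw [← h3]
      exact sum_congr rfl fun n _ => by rw [show c + 1 + n = c + (n + 1) by omega]
  have hG : 0 ≤ G := (norm_nonneg _).trans (hv 0)
  induction t using Nat.strong_induction_on generalizing c with
  | _ t ih =>
    rcases lt_or_ge t L with ht | ht
    · refine (norm_sum_le _ _).trans ((sum_le_card_nsmul _ _ G fun n _ => hv _).trans ?_)
      rw [card_range, nsmul_eq_mul]
      exact mul_le_mul_of_nonneg_right (Nat.cast_le.2 ht.le) hG
    · obtain ⟨r, rfl⟩ := Nat.exists_eq_add_of_le ht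
      rw [sum_range_add, hfull, zero_add]
      refine le_of_eq_of_le ?_ (ih r (by omega) (c + L))
      congr 1
      exact sum_congr rfl fun n _ => by rw [show c + (L + n) = c + L + n by omega]

/-- The weighted average over the block `(2 ^ m, 2 ^ (m + 1)]`. -/
def wavg (f : ℤ[X]) (v : ℕ → ℂ) (θ : ℝ) (m : ℕ) : ℂ :=
  (∑ n ∈ range (2 ^ m), v (2 ^ m + 1 + n) *
    ee (θ * (f.eval ((2 ^ m + 1 + n : ℕ) : ℤ) : ℤ))) / (2 : ℂ) ^ m

theorem phi_eq (f : ℤ[X]) (β : ℝ) (m : ℕ) : Odd.phi f β m = wavg f (fun _ => 1) β m := by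
  rw [Odd.phi, wavg]
  congr 1
  rw [show Ioc ((2 : ℕ) ^ m) (2 ^ (m + 1)) = Ico (2 ^ m + 1) (2 ^ (m + 1) + 1) by
    ext n; simp only [mem_Ioc, mem_Ico]; omega, sum_Ico_eq_sum_range,
    show 2 ^ (m + 1) + 1 - (2 ^ m + 1) = 2 ^ m by rw [pow_succ]; omega]
  exact sum_congr rfl fun n _ => (one_mul _).symm

/-- A periodic factor can be replaced by its mean on major arcs. -/
theorem periodic_approx (f : ℤ[X]) (hk1 : 1 ≤ f.natDegree) : ∃ C : ℝ, 0 ≤ C ∧
    ∀ (v : ℕ → ℂ) (L : ℕ), 1 ≤ L → (∀ n, v (n + L) = v n) → ∀ G : ℝ, (∀ n, ‖v n‖ ≤ G) →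
      ∀ (β : ℝ) (m : ℕ),
        ‖wavg f v β m - (∑ n ∈ range L, v n) / (L : ℕ) * Odd.phi f β m‖ ≤
          C * L * G * (1 + |β| * (2 : ℝ) ^ (m * f.natDegree)) / (2 : ℝ) ^ m := by
  set k := f.natDegree with hk
  set H := Odd.lipHeight f with hH
  have hH0 : 0 ≤ H := Odd.lipHeight_nonneg f
  refine ⟨2 * (1 + 2 * Real.pi * H * (4 : ℝ) ^ (k - 1)), by positivity,
    fun v L hL hper G hv β m => ?_⟩
  set P : ℕ := 2 ^ m with hP
  set μ : ℂ := (∑ n ∈ range L, v n) / (L : ℕ) with hμ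
  have hG : 0 ≤ G := (norm_nonneg _).trans (hv 0)
  have hLR : (0 : ℝ) < L := by exact_mod_cast hL
  have hμG : ‖μ‖ ≤ G := by
    rw [hμ, norm_div, Complex.norm_natCast, div_le_iff₀ hLR]
    refine (norm_sum_le _ _).trans ((sum_le_card_nsmul _ _ G fun n _ => hv _).trans ?_)
    rw [card_range, nsmul_eq_mul, mul_comm]
  set w : ℕ → ℂ := fun n => if n < P then ee (β * (f.eval ((P + 1 + n : ℕ) : ℤ) : ℤ)) else 0
    with hw
  have hw1 : ∀ n, ‖w n‖ ≤ 1 := fun n => by
    simp only [hw]; split_ifs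
    · rw [norm_ee]
    · simp
  have hsplit : (∑ n ∈ range P, v (P + 1 + n) * ee (β * (f.eval ((P + 1 + n : ℕ) : ℤ) : ℤ))) =
      μ * (∑ n ∈ range P, w n) + ∑ n ∈ range P, w n * (v (P + 1 + n) - μ) := by
    rw [mul_sum, ← sum_add_distrib]
    refine sum_congr rfl fun n hn => ?_
    simp only [hw, if_pos (mem_range.1 hn)]
    ring
  set Z : ℝ := 2 * Real.pi * H * (4 : ℝ) ^ (k - 1) * (|β| * (2 : ℝ) ^ (m * k)) with hZ
  have hvar : ∑ n ∈ range (P - 1), ‖w (n + 1) - w n‖ ≤ Z := by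
    refine (sum_le_card_nsmul _ _ (2 * Real.pi * (|β| * (H * ((4 * P : ℕ) : ℝ) ^ (k - 1)))) fun n hn => ?_).trans ?_
    · have hnP : n + 1 < P := by have := mem_range.1 hn; omega
      simp only [hw, if_pos hnP, if_pos (Nat.lt_of_succ_lt hnP)]
      refine (Odd.norm_ee_sub_ee_le _ _).trans ?_
      rw [← mul_sub, abs_mul]
      refine mul_le_mul_of_nonneg_left (mul_le_mul_of_nonneg_left ?_ (abs_nonneg β)) (by positivity)
      have := Odd.abs_eval_sub_le f (x := P + 1 + (n + 1)) (y := P + 1 + n) (L := 4 * P) (by omega)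
        (by omega) (by omega)
      refine this.trans (le_of_eq ?_)
      rw [← hH, ← hk]
      push_cast
      simp
    · rw [card_range, nsmul_eq_mul, hZ, pow_mul, show ((2 : ℝ) ^ m) = (P : ℝ) by rw [hP]; push_cast; rfl]
      have hpk : (P : ℝ) ^ (k - 1) * P = (P : ℝ) ^ k := by
        rw [← pow_succ, Nat.sub_add_cancel hk1]
      calc ((P - 1 : ℕ) : ℝ) * (2 * Real.pi * (|β| * (H * ((4 * P : ℕ) : ℝ) ^ (k - 1))))
          ≤ (P : ℝ) * (2 * Real.pi * (|β| * (H * ((4 * P : ℕ) : ℝ) ^ (k - 1)))) :=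
            mul_le_mul_of_nonneg_right (Nat.cast_le.2 (Nat.sub_le _ _)) (by positivity)
        _ = 2 * Real.pi * H * (4 : ℝ) ^ (k - 1) * (|β| * ((P : ℝ) ^ (k - 1) * P)) := by
            push_cast; rw [mul_pow]; ring
        _ = _ := by rw [hpk]
  have hwin : ∀ t, ‖∑ n ∈ range t, (v (P + 1 + n) - μ)‖ ≤ L * (2 * G) := by
    intro t
    refine periodic_window (fun n => v n - μ) hL (fun n => by rw [hper]) ?_ (fun n => ?_) (P + 1) t
    · rw [sum_sub_distrib, sum_const, card_range, nsmul_eq_mul, hμ,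
        mul_div_cancel₀ _ (Nat.cast_ne_zero.2 (by omega)), sub_self]
    · exact (norm_sub_le _ _).trans (by linarith [hv n])
  have hab := (abel_bound w (fun n => v (P + 1 + n) - μ) hwin hw1 P).trans
    (mul_le_mul_of_nonneg_left (add_le_add le_rfl hvar) (by positivity))
  have hphi : Odd.phi f β m = (∑ n ∈ range P, w n) / (2 : ℂ) ^ m := by
    rw [phi_eq, wavg, ← hP]
    congr 1
    exact sum_congr rfl fun n hn => by simp only [hw, if_pos (mem_range.1 hn), one_mul]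
  rw [wavg, ← hP, hphi, hsplit, ← mul_div_assoc, ← sub_div, add_sub_cancel_left, norm_div, norm_pow,
    Complex.norm_ofNat]
  refine div_le_div_of_nonneg_right (hab.trans ?_) (by positivity)
  rw [hZ]
  have h1 : 0 ≤ |β| * (2 : ℝ) ^ (m * k) := by positivity
  have h2 : 0 ≤ (L : ℝ) * G := by positivity
  have h3 : 0 ≤ 2 * Real.pi * H * (4 : ℝ) ^ (k - 1) := by positivity
  nlinarith [mul_nonneg h2 (mul_nonneg h3 zero_le_one), mul_nonneg h2 h1]

/-- Inverse Weyl inequality along progressions. -/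
theorem progression_inverse (f : ℤ[X]) {k : ℕ} (hk : f.natDegree = k) (hk1 : 1 ≤ k)
    (hlead : 0 < f.leadingCoeff) :
    ∃ (A : ℝ) (w : ℕ), 1 ≤ A ∧ ∀ η : ℝ, 0 < η → η ≤ 1 → ∀ c d M : ℕ, 1 ≤ d → 1 ≤ M →
      ∀ θ : ℝ, η * M ≤ ‖∑ x ∈ range M, ee (θ * (f.eval ((c + d * x : ℕ) : ℤ) : ℤ))‖ →
        ∃ (a : ℤ) (q : ℕ) (β : ℝ), 1 ≤ q ∧ Int.gcd a q = 1 ∧ θ = (a : ℝ) / q + β ∧
          (q : ℝ) ≤ A * (d : ℝ) ^ k / η ^ w ∧ |β| * (M : ℝ) ^ k ≤ A / η ^ w := by
  obtain ⟨A, w, hA, hW⟩ := weyl_inverse k hk1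
  set l := f.leadingCoeff with hl
  have hlR : (1 : ℝ) ≤ l := by exact_mod_cast hlead
  refine ⟨A * l, w, one_le_mul_of_one_le_of_one_le hA hlR, fun η hη hη1 c d M hd hM θ hS => ?_⟩
  set p : ℝ[X] := Polynomial.C θ *
    (f.map (Int.castRingHom ℝ)).comp (Polynomial.C (d : ℝ) * X + Polynomial.C (c : ℝ)) with hp
  have hfd : (f.map (Int.castRingHom ℝ)).natDegree = k := by
    rw [natDegree_map_eq_of_injective Int.cast_injective, hk]
  have hlin : (Polynomial.C (d : ℝ) * X + Polynomial.C (c : ℝ)).natDegree = 1 :=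
    natDegree_linear (Nat.cast_ne_zero.2 (by omega))
  have hpd : p.natDegree ≤ k := by
    refine (natDegree_C_mul_le _ _).trans ?_
    rw [natDegree_comp, hfd, hlin, mul_one]
  have hpc : p.coeff k = θ * ((l : ℝ) * (d : ℝ) ^ k) := by
    rw [hp, coeff_C_mul]
    congr 1
    have h1 : ((f.map (Int.castRingHom ℝ)).comp
        (Polynomial.C (d : ℝ) * X + Polynomial.C (c : ℝ))).coeff k =
        ((f.map (Int.castRingHom ℝ)).comp
          (Polynomial.C (d : ℝ) * X + Polynomial.C (c : ℝ))).leadingCoeff := by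
      rw [leadingCoeff, natDegree_comp, hfd, hlin, mul_one]
    rw [h1, leadingCoeff_comp (by rw [hlin]; exact one_ne_zero),
      leadingCoeff_linear (Nat.cast_ne_zero.2 (by omega)), hfd,
      leadingCoeff_map_of_injective Int.cast_injective]
    simp [hl]
  have hpe : ∀ n : ℕ, p.eval (n : ℝ) = θ * (f.eval ((c + d * n : ℕ) : ℤ) : ℤ) := by
    intro n
    rw [hp, eval_mul, eval_C, eval_comp]
    congr 1
    have h1 : (((c + d * n : ℕ) : ℤ) : ℝ) = (d : ℝ) * (n : ℝ) + c := by push_cast; ring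
    simp only [eval_add, eval_mul, eval_C, eval_X]
    rw [← h1]
    exact eval_intCast_map (Int.castRingHom ℝ) f _
  obtain ⟨q₁, hq₁, hq₁A, z, hz⟩ := hW η hη hη1 M hM p hpd (by simpa only [hpe] using hS)
  rw [hpc] at hz
  set Q : ℕ := q₁ * l.toNat * d ^ k with hQ
  have hll : ((l.toNat : ℕ) : ℝ) = (l : ℝ) := by
    rw [← Int.cast_natCast, Int.toNat_of_nonneg hlead.le]
  have hQR : (Q : ℝ) = (q₁ : ℝ) * ((l : ℝ) * (d : ℝ) ^ k) := by
    rw [hQ, Nat.cast_mul, Nat.cast_mul, hll, Nat.cast_pow]; ring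
  have hQ0 : 0 < Q := by
    rw [hQ]; exact Nat.mul_pos (Nat.mul_pos hq₁ (by omega)) (pow_pos hd k)
  have hQR0 : (0 : ℝ) < Q := by exact_mod_cast hQ0
  set r : ℚ := (z : ℚ) / (Q : ℚ) with hr
  have hqQ : r.den ≤ Q := by
    refine Nat.le_of_dvd hQ0 ?_
    have h1 : ((r.den : ℤ)) ∣ (Q : ℤ) := by
      have h0 : r = Rat.divInt z (Q : ℤ) := by rw [hr, Rat.divInt_eq_div]; push_cast; rfl
      rw [h0]
      exact Rat.den_dvd z Q
    exact_mod_cast h1
  have hrR : (z : ℝ) / Q = (r.num : ℝ) / r.den := by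
    rw [← Rat.cast_def, hr]; push_cast; rfl
  refine ⟨r.num, r.den, θ - (z : ℝ) / Q, r.pos, ?_, ?_, ?_, ?_⟩
  · rw [Int.gcd, Int.natAbs_natCast]; exact r.reduced
  · rw [← hrR]; ring
  · calc (r.den : ℝ) ≤ Q := by exact_mod_cast hqQ
      _ ≤ A / η ^ w * ((l : ℝ) * (d : ℝ) ^ k) := by
          rw [hQR]; exact mul_le_mul_of_nonneg_right hq₁A (by positivity)
      _ = _ := by ring
  · have hQ1 : (1 : ℝ) ≤ Q := by exact_mod_cast hQ0
    have hβ : |θ - (z : ℝ) / Q| ≤ A / η ^ w / (M : ℝ) ^ k := by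
      rw [show θ - (z : ℝ) / Q = ((q₁ : ℝ) * (θ * ((l : ℝ) * (d : ℝ) ^ k)) - z) / Q by
        rw [eq_div_iff hQR0.ne', sub_mul, div_mul_cancel₀ _ hQR0.ne', hQR]; ring,
        abs_div, abs_of_pos hQR0]
      exact (div_le_self (abs_nonneg _) hQ1).trans hz
    have hMR : (0 : ℝ) < (M : ℝ) ^ k := by positivity
    calc |θ - (z : ℝ) / Q| * (M : ℝ) ^ k ≤ A / η ^ w := (le_div_iff₀ hMR).1 hβ
      _ ≤ _ := div_le_div_of_nonneg_right (le_mul_of_one_le_right (by linarith) hlR) (by positivity)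

/-- A periodic factor splits a block into progressions. -/
theorem block_split (v F : ℕ → ℂ) {d : ℕ} (hd : 1 ≤ d) (hper : ∀ n, v (n + d) = v n) {G T : ℝ}
    (hv : ∀ n, ‖v n‖ ≤ G) (hF : ∀ n, ‖F n‖ ≤ 1) (c P : ℕ)
    (hT : ∀ b < d, ‖∑ x ∈ range (P / d), F (c + b + d * x)‖ ≤ T) :
    ‖∑ n ∈ range P, v (c + n) * F (c + n)‖ ≤ d * G * (T + 1) := by
  have hG : 0 ≤ G := (norm_nonneg _).trans (hv 0)
  have hmul : ∀ b x, v (b + d * x) = v b := by
    intro b x
    induction x with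
    | zero => simp
    | succ x ih => rw [mul_add, mul_one, ← add_assoc, hper, ih]
  rw [← Nat.div_add_mod P d, sum_range_add, Local.sum_range_split d (P / d) (by omega)]
  refine (norm_add_le _ _).trans ?_
  rw [mul_add, mul_one]
  refine add_le_add ?_ ?_
  · refine (norm_sum_le _ _).trans ((sum_le_card_nsmul _ _ (G * T) fun b hb => ?_).trans
      (le_of_eq (by rw [card_range, nsmul_eq_mul, mul_assoc])))
    have h1 : ∑ x ∈ range (P / d), v (c + (b + d * x)) * F (c + (b + d * x)) =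
        v (c + b) * ∑ x ∈ range (P / d), F (c + b + d * x) := by
      rw [mul_sum]
      exact sum_congr rfl fun x _ => by rw [← add_assoc, hmul (c + b) x]
    rw [h1, norm_mul]
    exact mul_le_mul (hv _) (hT b (mem_range.1 hb)) (norm_nonneg _) hG
  · refine (norm_sum_le _ _).trans ((sum_le_card_nsmul _ _ G fun n _ => ?_).trans ?_)
    · rw [norm_mul]
      exact (mul_le_mul (hv _) (hF _) (norm_nonneg _) hG).trans (mul_one G).le
    · rw [card_range, nsmul_eq_mul]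
      exact mul_le_mul_of_nonneg_right (Nat.cast_le.2 (Nat.mod_lt _ (by omega)).le) hG

end

end Vale.Agent.P042.Loc
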