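import Vale.Agent.P042.Loc.Euler
import Vale.Agent.P042.Loc.Construct
import Vale.Agent.P042.Loc.Sums
import Vale.Agent.P042.Odd.Main

/-!
The power saving from local weights.
-/

open Finset Polynomial

namespace Vale.Agent.P042.Loc

open Vale.Agent.P042.Upper

noncomputable section

/-- The geometric weight of the scale `i`. -/
def scaleWt (δ : ℝ) (i : ℕ) : ℝ := (1 - (2 : ℝ) ^ (-δ)) * ((2 : ℝ) ^ (-δ)) ^ i

/-- The transform of the weights at level `u`. -/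
def wtrans (f : ℤ[X]) (g : ℕ → ℕ → ℕ → ℝ) (δ : ℝ) (K u : ℕ) (θ : ℝ) : ℝ :=
  ∑ i ∈ range (u + 1), scaleWt δ i *
    ∑ d ∈ Icc 1 (2 ^ u), (wavg f (fun n => (gd g d n : ℂ)) θ (K * u - i)).re

theorem scaleWt_nonneg {δ : ℝ} (hδ : 0 ≤ δ) (i : ℕ) : 0 ≤ scaleWt δ i := Odd.scale_nonneg hδ i

theorem scaleWt_sum_le {δ : ℝ} (hδ : 0 ≤ δ) (u : ℕ) : ∑ i ∈ range (u + 1), scaleWt δ i ≤ 1 :=
  Odd.scale_sum_le hδ u

theorem abs_scales_le {δ : ℝ} (hδ : 0 ≤ δ) (u : ℕ) (x : ℕ → ℝ) {T : ℝ} (hT : 0 ≤ T)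
    (hx : ∀ i ≤ u, |x i| ≤ T) : |∑ i ∈ range (u + 1), scaleWt δ i * x i| ≤ T := by
  refine (abs_sum_le_sum_abs _ _).trans ((sum_le_sum (g := fun i => scaleWt δ i * T)
    fun i hi => ?_).trans ?_)
  · rw [abs_mul, abs_of_nonneg (scaleWt_nonneg hδ i)]
    exact mul_le_mul_of_nonneg_left (hx i (Nat.lt_succ_iff.1 (mem_range.1 hi))) (scaleWt_nonneg hδ i)
  · rw [← sum_mul]
    exact mul_le_of_le_one_left hT (scaleWt_sum_le hδ u)

theorem pow_cube_le {d u : ℕ} (hd : d ≤ 2 ^ u) : (d : ℝ) ^ 3 ≤ (2 : ℝ) ^ (3 * u) := by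
  calc (d : ℝ) ^ 3 ≤ ((2 : ℝ) ^ u) ^ 3 :=
        pow_le_pow_left₀ (Nat.cast_nonneg _) (by exact_mod_cast hd) 3
    _ = _ := by rw [← pow_mul, mul_comm]

/-- The weighted averages are close to the arithmetic factor times the plain averages. -/
theorem major_factor (f : ℤ[X]) (hk1 : 1 ≤ f.natDegree) (g : ℕ → ℕ → ℕ → ℝ) {C₀ κ₀ : ℝ}
    (hW : Weights f g C₀ κ₀) : ∃ C : ℝ, 0 ≤ C ∧
    ∀ u q : ℕ, 1 ≤ q → ∀ (a : ℤ) (β : ℝ) (m : ℕ),
      |∑ d ∈ Icc 1 (2 ^ u), (wavg f (fun n => (gd g d n : ℂ)) ((a : ℝ) / q + β) m).re -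
          (Fac f g (2 ^ u) a q * Odd.phi f β m).re| ≤
        C * (2 : ℝ) ^ (5 * u) * q * (1 + |β| * (2 : ℝ) ^ (m * f.natDegree)) / (2 : ℝ) ^ m := by
  obtain ⟨C, hC, hap⟩ := periodic_approx f hk1
  refine ⟨C, hC, fun u q hq a β m => ?_⟩
  rw [Fac, sum_mul, Complex.re_sum, ← sum_sub_distrib]
  set Z : ℝ := 1 + |β| * (2 : ℝ) ^ (m * f.natDegree) with hZ
  refine (abs_sum_le_sum_abs _ _).trans ((sum_le_card_nsmul _ _
    (C * (2 : ℝ) ^ (4 * u) * q * Z / (2 : ℝ) ^ m) fun d hd => ?_).trans (le_of_eq ?_))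
  swap
  · rw [Nat.card_Icc, Nat.add_sub_cancel, nsmul_eq_mul, show 5 * u = u + 4 * u by omega,
      pow_add (2 : ℝ) u]
    push_cast
    ring
  obtain ⟨hd1, hd2⟩ := mem_Icc.1 hd
  set v : ℕ → ℂ := fun n => (gd g d n : ℂ) * Local.eq' q (a * f.eval (n : ℤ)) with hv
  have hper : ∀ n, v (n + d * q) = v n := by
    intro n
    have h1 : ∀ x y, gd g d (y + d * x) = gd g d y := by
      intro x
      induction x with
      | zero => simp
      | succ x ih => intro y; rw [mul_add, mul_one, ← add_assoc, gd_periodic hW hd1, ih]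
    simp only [hv]
    rw [h1, Odd.eq'_eval_mod f a (by omega) (x := n + d * q) (y := (n : ℤ))
      ⟨d, by push_cast; ring⟩]
  have hG : ∀ n, ‖v n‖ ≤ (d : ℝ) ^ 3 := by
    intro n
    rw [hv, norm_mul, Local.norm_eq', mul_one, Complex.norm_real]
    exact abs_gd_le hW hd1 n
  have h1 := hap v (d * q) (Nat.mul_pos hd1 hq) hper _ hG β m
  have hwv : wavg f v β m = wavg f (fun n => (gd g d n : ℂ)) ((a : ℝ) / q + β) m := by
    simp only [wavg, hv, Local.eq']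
    congr 1
    refine sum_congr rfl fun n _ => ?_
    rw [mul_assoc, ← ee_add]
    congr 2
    push_cast
    ring
  rw [hwv] at h1
  rw [← Complex.sub_re]
  refine (Complex.abs_re_le_norm _).trans (h1.trans ?_)
  refine div_le_div_of_nonneg_right (mul_le_mul_of_nonneg_right ?_ (by positivity)) (by positivity)
  push_cast
  have hd' : (d : ℝ) ≤ (2 : ℝ) ^ u := by exact_mod_cast hd2
  calc C * ((d : ℝ) * q) * (d : ℝ) ^ 3 ≤ C * ((2 : ℝ) ^ u * q) * (2 : ℝ) ^ (3 * u) := by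
        gcongr
        exact pow_cube_le hd2
    _ = _ := by rw [show 4 * u = u + 3 * u by omega, pow_add]; ring

/-- Either the weighted averages are all tiny, or the frequency is on a major arc. -/
theorem arcs_dichotomy (f : ℤ[X]) {k : ℕ} (hk : f.natDegree = k) (hk1 : 1 ≤ k)
    (hlead : 0 < f.leadingCoeff) (g : ℕ → ℕ → ℕ → ℝ) {C₀ κ₀ : ℝ} (hW : Weights f g C₀ κ₀) :
    ∃ (E : ℕ) (B : ℝ), 0 ≤ B ∧ ∀ K u : ℕ, 9 ≤ K → 1 ≤ u → ∀ θ : ℝ, ∀ δ : ℝ, 0 ≤ δ →
      |wtrans f g δ K u θ| ≤ 2 * ((2 : ℝ) ^ (2 * u))⁻¹ ∨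
      ∃ (a : ℤ) (q : ℕ) (β : ℝ), 1 ≤ q ∧ Int.gcd a q = 1 ∧ θ = (a : ℝ) / q + β ∧
        (q : ℝ) ≤ B * (2 : ℝ) ^ (E * u) ∧
        |β| * (2 : ℝ) ^ (k * (K * u)) ≤ B * (2 : ℝ) ^ (E * u) := by
  obtain ⟨A, w, hA, hI⟩ := progression_inverse f hk hk1 hlead
  refine ⟨6 * w + 2 * k, A * 2 ^ k, by positivity, fun K u hK hu θ δ hδ => ?_⟩
  set η : ℝ := ((2 : ℝ) ^ (6 * u))⁻¹ with hη
  have hη0 : 0 < η := by positivity
  have hη1 : η ≤ 1 := inv_le_one_of_one_le₀ (one_le_pow₀ one_le_two)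
  have hKu : 9 * u ≤ K * u := Nat.mul_le_mul_right _ hK
  by_cases hsmall : ∀ i ≤ u, ∀ d ∈ Icc 1 (2 ^ u), ∀ b < d,
      ‖∑ x ∈ range (2 ^ (K * u - i) / d),
        ee (θ * (f.eval ((2 ^ (K * u - i) + 1 + b + d * x : ℕ) : ℤ) : ℤ))‖ ≤
        η * (2 ^ (K * u - i) / d : ℕ)
  · left
    refine abs_scales_le hδ u _ (by positivity) fun i hi => ?_
    set m := K * u - i with hm
    have hm8 : 8 * u ≤ m := by omega
    refine (abs_sum_le_sum_abs _ _).trans ((sum_le_card_nsmul _ _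
      (2 * ((2 : ℝ) ^ (3 * u))⁻¹) fun d hd => ?_).trans (le_of_eq ?_))
    · obtain ⟨hd1, hd2⟩ := mem_Icc.1 hd
      refine (Complex.abs_re_le_norm _).trans ?_
      rw [wavg, norm_div, norm_pow, Complex.norm_ofNat, div_le_iff₀ (by positivity)]
      have hd' : (d : ℝ) ≤ (2 : ℝ) ^ u := by exact_mod_cast hd2
      have hb := block_split (fun n => (gd g d n : ℂ))
        (fun n => ee (θ * (f.eval (n : ℤ) : ℤ))) hd1
        (fun n => by simp only [gd_periodic hW hd1])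
        (G := (d : ℝ) ^ 3) (T := η * (2 ^ m / d : ℕ))
        (fun n => by rw [Complex.norm_real]; exact abs_gd_le hW hd1 n)
        (fun n => (norm_ee _).le) (2 ^ m + 1) (2 ^ m) (fun b hb => hsmall i hi d hd b hb)
      refine hb.trans ?_
      have h1 : (d : ℝ) * (2 ^ m / d : ℕ) ≤ (2 : ℝ) ^ m := by
        exact_mod_cast Nat.mul_div_le (2 ^ m) d
      calc (d : ℝ) * (d : ℝ) ^ 3 * (η * (2 ^ m / d : ℕ) + 1)
          = (d : ℝ) ^ 3 * η * ((d : ℝ) * (2 ^ m / d : ℕ)) + (d : ℝ) * (d : ℝ) ^ 3 := by ring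
        _ ≤ (2 : ℝ) ^ (3 * u) * η * (2 : ℝ) ^ m + (2 : ℝ) ^ u * (2 : ℝ) ^ (3 * u) := by
            gcongr <;> exact pow_cube_le hd2
        _ ≤ ((2 : ℝ) ^ (3 * u))⁻¹ * (2 : ℝ) ^ m + ((2 : ℝ) ^ (3 * u))⁻¹ * (2 : ℝ) ^ m := by
            refine add_le_add (le_of_eq ?_) ?_
            · rw [hη, show 6 * u = 3 * u + 3 * u by omega, pow_add]; field_simp
            · rw [inv_mul_eq_div, le_div_iff₀ (by positivity), ← pow_add, ← pow_add]
              exact pow_le_pow_right₀ one_le_two (by omega)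
        _ = _ := by ring
    · rw [Nat.card_Icc, Nat.add_sub_cancel, nsmul_eq_mul, show 3 * u = u + 2 * u by omega, pow_add]
      push_cast
      field_simp
  · right
    push Not at hsmall
    obtain ⟨i, hi, d, hd, b, hb, hbig⟩ := hsmall
    obtain ⟨hd1, hd2⟩ := mem_Icc.1 hd
    set m := K * u - i with hm
    have hdm : d ≤ 2 ^ m := hd2.trans (Nat.pow_le_pow_right two_pos (by omega))
    set M := 2 ^ m / d with hM
    have hM1 : 1 ≤ M := Nat.div_pos hdm hd1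
    obtain ⟨a, q, β, hq, ha, hθ, hqA, hβ⟩ := hI η hη0 hη1 (2 ^ m + 1 + b) d M hd1 hM1 θ hbig.le
    refine ⟨a, q, β, hq, ha, hθ, ?_, ?_⟩
    · refine hqA.trans ?_
      rw [hη, inv_pow, div_inv_eq_mul, ← pow_mul, mul_assoc,
        show (6 * w + 2 * k) * u = u * k + (6 * u * w + u * k) by ring, pow_add (2 : ℝ)]
      refine mul_le_mul (le_mul_of_one_le_right (by linarith) (one_le_pow₀ one_le_two)) ?_
        (by positivity) (by positivity)
      refine mul_le_mul ?_ (pow_le_pow_right₀ one_le_two (by omega)) (by positivity) (by positivity)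
      rw [pow_mul]
      exact pow_le_pow_left₀ (Nat.cast_nonneg _) (by exact_mod_cast hd2) k
    · have hMd : (2 : ℝ) ^ m ≤ 2 * d * M := by
        have h1 : 2 ^ m ≤ 2 * d * M := by
          have h2 := Nat.lt_mul_div_succ (2 ^ m) hd1
          rw [← hM, mul_add, mul_one] at h2
          have h3 : d ≤ d * M := Nat.le_mul_of_pos_right _ hM1
          rw [mul_assoc]; omega
        exact_mod_cast h1
      have h2 : (2 : ℝ) ^ (K * u) ≤ (2 : ℝ) ^ (2 * u + 1) * M := by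
        calc (2 : ℝ) ^ (K * u) = 2 ^ i * 2 ^ m := by
              rw [← pow_add, hm, Nat.add_sub_cancel' (by omega)]
          _ ≤ 2 ^ i * (2 * d * M) := by gcongr
          _ ≤ 2 ^ u * (2 * 2 ^ u * M) := by
              gcongr
              · exact one_le_two
              · exact_mod_cast hd2
          _ = _ := by rw [pow_succ, two_mul u, pow_add]; ring
      calc |β| * (2 : ℝ) ^ (k * (K * u)) ≤ |β| * ((2 : ℝ) ^ (2 * u + 1) * M) ^ k := by
            rw [mul_comm k, pow_mul]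
            exact mul_le_mul_of_nonneg_left (pow_le_pow_left₀ (by positivity) h2 k) (abs_nonneg _)
        _ = |β| * (M : ℝ) ^ k * (2 : ℝ) ^ ((2 * u + 1) * k) := by rw [mul_pow, ← pow_mul]; ring
        _ ≤ A / η ^ w * (2 : ℝ) ^ ((2 * u + 1) * k) := mul_le_mul_of_nonneg_right hβ (by positivity)
        _ = _ := by
            rw [hη, inv_pow, div_inv_eq_mul, ← pow_mul]
            ring

/-- The transform is bounded below by a power saving. -/
theorem wtrans_lower (f : ℤ[X]) {k : ℕ} (hk : f.natDegree = k) (hk1 : 1 ≤ k)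
    (hlead : 0 < f.leadingCoeff) (g : ℕ → ℕ → ℕ → ℝ) {C₀ κ₀ : ℝ} (hW : Weights f g C₀ κ₀) :
    ∃ δ γ C : ℝ, ∃ K : ℕ, 0 < δ ∧ 0 < γ ∧ 0 ≤ C ∧ 9 ≤ K ∧ ∀ u : ℕ, 1 ≤ u →
      (∀ θ : ℝ, -(C * (2 : ℝ) ^ (-(γ * u))) ≤ wtrans f g δ K u θ) ∧
      (1 - (2 : ℝ) ^ (-δ)) - C * (2 : ℝ) ^ (-(γ * u)) ≤ wtrans f g δ K u 0 := by
  obtain ⟨CF, κ, hCF, hκ, hF⟩ := euler_main hW
  obtain ⟨δ, γA, hδ, hγA, hA⟩ := Odd.arch_main f hk hk1 hlead
  obtain ⟨E, B, hB, hdich⟩ := arcs_dichotomy f hk hk1 hlead g hW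
  obtain ⟨CM, hCM, hM⟩ := major_factor f (by omega) g hW
  obtain ⟨K₀, CA, hCA, hArch⟩ := hA E B hB
  set K := max K₀ (2 * E + 9) with hK
  set γ := min (min γA κ) 2 with hγ
  have hγ0 : 0 < γ := lt_min (lt_min hγA hκ) two_pos
  have hK9 : 9 ≤ K := le_trans (by omega) (le_max_right _ _)
  set Cerr : ℝ := CM * (B * (1 + B) + 1) with hCerr
  have hCerr0 : 0 ≤ Cerr := by positivity
  refine ⟨δ, γ, 2 + Cerr + CF * CA + CF, K, hδ, hγ0, by positivity, hK9, fun u hu => ?_⟩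
  have hle : ∀ x : ℝ, γ ≤ x → (2 : ℝ) ^ (-(x * u)) ≤ (2 : ℝ) ^ (-(γ * u)) := fun x hx => by
    refine Real.rpow_le_rpow_of_exponent_le one_le_two ?_
    have : (0 : ℝ) ≤ u := Nat.cast_nonneg u
    nlinarith
  have hdec : ((2 : ℝ) ^ (2 * u))⁻¹ ≤ (2 : ℝ) ^ (-(γ * u)) := by
    refine le_trans (le_of_eq ?_) (hle 2 (min_le_right _ _))
    rw [← Real.rpow_natCast, ← Real.rpow_neg two_pos.le]
    push_cast
    ring_nf
  have hpos : 0 ≤ (2 : ℝ) ^ (-(γ * u)) := by positivity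
  have hC1 : 0 ≤ CF * CA + CF := by positivity
  have hKu : u ≤ K * u := Nat.le_mul_of_pos_left u (by omega)
  have happ : ∀ (a : ℤ) (q : ℕ) (β : ℝ), 1 ≤ q →
      CM * q * (1 + |β| * (2 : ℝ) ^ (k * (K * u))) ≤ Cerr * (2 : ℝ) ^ (2 * E * u) →
      |wtrans f g δ K u ((a : ℝ) / q + β) -
        ∑ i ∈ range (u + 1), scaleWt δ i * (Fac f g (2 ^ u) a q * Odd.phi f β (K * u - i)).re| ≤
        Cerr * ((2 : ℝ) ^ (2 * u))⁻¹ := by
    intro a q β hq hsize
    rw [wtrans, ← sum_sub_distrib]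
    simp only [← mul_sub]
    refine abs_scales_le hδ.le u _ (by positivity) fun i hi => ?_
    refine (hM u q hq a β (K * u - i)).trans ?_
    rw [hk]
    have h1 : CM * (2 : ℝ) ^ (5 * u) * q * (1 + |β| * (2 : ℝ) ^ ((K * u - i) * k)) ≤
        Cerr * (2 : ℝ) ^ (5 * u + 2 * E * u) := by
      calc _ = (2 : ℝ) ^ (5 * u) * (CM * q * (1 + |β| * (2 : ℝ) ^ ((K * u - i) * k))) := by ring
        _ ≤ (2 : ℝ) ^ (5 * u) * (Cerr * (2 : ℝ) ^ (2 * E * u)) := by
            refine mul_le_mul_of_nonneg_left (le_trans ?_ hsize) (by positivity)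
            gcongr CM * q * (1 + |β| * ?_)
            refine pow_le_pow_right₀ one_le_two ?_
            rw [mul_comm k]
            exact Nat.mul_le_mul_right k (Nat.sub_le _ _)
        _ = _ := by rw [pow_add]; ring
    refine (div_le_div_of_nonneg_right h1 (by positivity)).trans ?_
    rw [div_le_iff₀ (by positivity), mul_assoc Cerr]
    refine mul_le_mul_of_nonneg_left ?_ hCerr0
    rw [inv_mul_eq_div, le_div_iff₀ (by positivity), ← pow_add]
    refine pow_le_pow_right₀ one_le_two ?_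
    have : (2 * E + 9) * u ≤ K * u := Nat.mul_le_mul_right _ (le_max_right _ _)
    rw [add_mul] at this
    omega
  refine ⟨fun θ => ?_, ?_⟩
  · rcases hdich K u hK9 hu θ δ hδ.le with hs | ⟨a, q, β, hq, ha, hθ, hqB, hβB⟩
    · nlinarith [(abs_le.1 hs).1]
    obtain ⟨hFC, hFpos, hFsmall, -⟩ := hF (2 ^ u) q Nat.one_le_two_pow hq a ha
    set F := Fac f g (2 ^ u) a q with hFdef
    have hsize : CM * q * (1 + |β| * (2 : ℝ) ^ (k * (K * u))) ≤ Cerr * (2 : ℝ) ^ (2 * E * u) := by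
      have hone : (1 : ℝ) ≤ (2 : ℝ) ^ (E * u) := one_le_pow₀ one_le_two
      calc _ ≤ CM * (B * (2 : ℝ) ^ (E * u)) * ((1 + B) * (2 : ℝ) ^ (E * u)) := by
            gcongr
            rw [add_mul, one_mul]
            exact add_le_add hone hβB
        _ = CM * (B * (1 + B)) * (2 : ℝ) ^ (2 * E * u) := by
            rw [show 2 * E * u = E * u + E * u by ring, pow_add]; ring
        _ ≤ _ := by rw [hCerr]; gcongr; linarith
    have hm := happ a q β hq hsize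
    rw [← hθ] at hm
    have hmain : -((CF * CA + CF) * (2 : ℝ) ^ (-(γ * u))) ≤
        ∑ i ∈ range (u + 1), scaleWt δ i * (F * Odd.phi f β (K * u - i)).re := by
      have hphi : ∀ m, ‖Odd.phi f β m‖ ≤ 1 := fun m => Odd.norm_phi_le_one f β m
      rcases le_or_gt q (2 ^ u) with hqD | hqD
      · obtain ⟨him, hre⟩ := hFpos hqD
        have e1 : ∑ i ∈ range (u + 1), scaleWt δ i * (F * Odd.phi f β (K * u - i)).re =
            F.re * Odd.arch f δ β K u := by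
          rw [Odd.arch, mul_sum]
          refine sum_congr rfl fun i _ => ?_
          rw [Complex.mul_re, him, zero_mul, sub_zero, scaleWt]
          ring
        rw [e1]
        have h1 := hArch K u (le_max_left _ _) hu β hβB
        have h2 := mul_le_mul_of_nonneg_left (hle γA ((min_le_left _ _).trans (min_le_left _ _))) hCA
        have hF1 : F.re ≤ CF := (Complex.re_le_norm _).trans hFC
        have : 0 ≤ CA * (2 : ℝ) ^ (-(γ * u)) := by positivity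
        nlinarith [mul_nonneg hre (sub_nonneg.2 (show -(CA * (2 : ℝ) ^ (-(γ * u))) ≤
          Odd.arch f δ β K u by linarith)), mul_nonneg (sub_nonneg.2 hF1) this, mul_nonneg hCF hpos]
      · have h2 := hFsmall hqD
        rw [show (((2 ^ u : ℕ) : ℝ)) ^ (-κ) = (2 : ℝ) ^ (-(κ * u)) by
          push_cast
          rw [← Real.rpow_natCast, ← Real.rpow_mul two_pos.le]; ring_nf] at h2
        have h3 : ‖F‖ ≤ CF * (2 : ℝ) ^ (-(γ * u)) := h2.trans
          (mul_le_mul_of_nonneg_left (hle κ ((min_le_left _ _).trans (min_le_right _ _))) hCF)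
        have h4 := abs_scales_le hδ.le u (fun i => (F * Odd.phi f β (K * u - i)).re)
          (T := CF * (2 : ℝ) ^ (-(γ * u))) (by positivity) fun i _ =>
            (Complex.abs_re_le_norm _).trans (by
              rw [norm_mul]
              exact (mul_le_of_le_one_right (norm_nonneg _) (hphi _)).trans h3)
        nlinarith [(abs_le.1 h4).1, mul_nonneg (mul_nonneg hCF hCA) hpos]
    have := (abs_le.1 hm).1
    nlinarith [mul_le_mul_of_nonneg_left hdec hCerr0]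
  · have h0 : Fac f g (2 ^ u) 0 1 = 1 :=
      (hF (2 ^ u) 1 Nat.one_le_two_pow le_rfl 0 rfl).2.2.2
    have hm := happ 0 1 0 le_rfl (by
      rw [hCerr]
      simp only [Nat.cast_one, abs_zero, zero_mul, add_zero, mul_one]
      calc CM ≤ CM * (B * (1 + B) + 1) * 1 := by
            rw [mul_one]; exact le_mul_of_one_le_right hCM (le_add_of_nonneg_left (by positivity))
        _ ≤ _ := by gcongr; exact one_le_pow₀ one_le_two)
    have hphi0 : ∀ m, Odd.phi f 0 m = 1 := by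
      intro m
      rw [phi_eq, wavg]
      simp [ee_zero]
    rw [h0] at hm
    simp only [hphi0, Int.cast_zero, Nat.cast_one, zero_div, add_zero, mul_one, Complex.one_re] at hm
    have hfirst : scaleWt δ 0 ≤ ∑ i ∈ range (u + 1), scaleWt δ i :=
      single_le_sum (fun i _ => scaleWt_nonneg hδ.le i) (mem_range.2 (by omega))
    rw [scaleWt, pow_zero, mul_one] at hfirst
    nlinarith [(abs_le.1 hm).1, mul_le_mul_of_nonneg_left hdec hCerr0]

/-- The bound coming from the weights at level `u`. -/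
theorem wlevel_bound (f : ℤ[X]) (g : ℕ → ℕ → ℕ → ℝ) {δ : ℝ} {K u : ℕ} (hK : 9 ≤ K)
    {A : Finset ℕ} {N n₀ : ℕ} (hA : A ⊆ Icc 1 N) (hn₀ : n₀ ≤ 2 ^ u)
    (hpos : ∀ n : ℕ, n₀ ≤ n → 1 ≤ f.eval (n : ℤ))
    (hval : ∀ n : ℕ, n ≤ 2 ^ (K * u + 2) → f.eval (n : ℤ) ≤ N)
    (hav : ∀ a ∈ A, ∀ b ∈ A, ∀ n : ℕ, n₀ ≤ n → (a : ℤ) - b ≠ f.eval (n : ℤ)) {ε : ℝ} (hε : 0 ≤ ε)
    (hlow : ∀ θ, -ε ≤ wtrans f g δ K u θ) :
    wtrans f g δ K u 0 * (A.card : ℝ) ≤ 2 * ε * N := by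
  set s : Finset ((_ : ℕ) × (_ : ℕ) × ℕ) := (range (u + 1)).sigma fun i =>
    (Icc 1 (2 ^ u)).sigma fun _ => range (2 ^ (K * u - i)) with hs
  set val : ((_ : ℕ) × (_ : ℕ) × ℕ) → ℕ := fun x => 2 ^ (K * u - x.1) + 1 + x.2.2 with hval'
  set wgt : ((_ : ℕ) × (_ : ℕ) × ℕ) → ℝ := fun x =>
    scaleWt δ x.1 * gd g x.2.1 (val x) / (2 : ℝ) ^ (K * u - x.1) with hwgt
  have hsum : ∀ θ : ℝ,
      ∑ x ∈ s, wgt x * (ee (θ * (f.eval ((val x : ℕ) : ℤ) : ℤ))).re = wtrans f g δ K u θ := by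
    intro θ
    simp only [hs, sum_sigma, wtrans, wavg, hwgt, hval', mul_sum]
    refine sum_congr rfl fun i _ => sum_congr rfl fun d _ => ?_
    rw [show (2 : ℂ) ^ (K * u - i) = (((2 : ℝ) ^ (K * u - i) : ℝ) : ℂ) by push_cast; rfl,
      Complex.div_ofReal_re, Complex.re_sum, sum_div, mul_sum]
    exact sum_congr rfl fun x _ => by rw [Complex.re_ofReal_mul]; ring
  have hbound : ∀ x ∈ s, n₀ ≤ val x ∧ val x ≤ 2 ^ (K * u + 2) := by
    rintro ⟨i, d, n⟩ hx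
    simp only [hs, mem_sigma, mem_range] at hx
    obtain ⟨hi, -, hn⟩ := hx
    simp only [hval']
    have h9u : 9 * u ≤ K * u := Nat.mul_le_mul_right _ hK
    have h3 : 2 ^ u ≤ 2 ^ (K * u - i) := Nat.pow_le_pow_right two_pos (by omega)
    have h4 : 2 ^ (K * u - i) ≤ 2 ^ (K * u) := Nat.pow_le_pow_right two_pos (Nat.sub_le _ _)
    constructor
    · omega
    · rw [pow_add]; omega
  have hw : ∑ x ∈ s, wgt x = wtrans f g δ K u 0 := by
    rw [← hsum 0]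
    exact sum_congr rfl fun x _ => by simp [ee_zero]
  rw [← hw]
  refine Odd.lp_bound s wgt (fun x => f.eval ((val x : ℕ) : ℤ)) hA (fun x hx => ?_)
    (fun x hx a ha b hb => hav a ha b hb _ (hbound x hx).1) hε fun θ => by rw [hsum]; exact hlow θ
  rw [abs_of_nonneg (le_trans zero_le_one (hpos _ (hbound x hx).1))]
  exact hval _ (hbound x hx).2

/-- Power saving from local weights. -/
theorem weights_saving (f : ℤ[X]) (hk1 : 1 ≤ f.natDegree) (hlead : 0 < f.leadingCoeff)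
    (g : ℕ → ℕ → ℕ → ℝ) {C₀ κ₀ : ℝ} (hW : Weights f g C₀ κ₀) :
    ∃ (n₀ : ℕ) (c C : ℝ), 0 < c ∧ 1 ≤ n₀ ∧ (∀ n : ℕ, n₀ ≤ n → 1 ≤ f.eval (n : ℤ)) ∧ ∀ (N : ℕ) (A : Finset ℕ), A ⊆ Icc 1 N →
      (∀ a ∈ A, ∀ b ∈ A, ∀ n : ℕ, n₀ ≤ n → (a : ℤ) - b ≠ f.eval (n : ℤ)) →
      (A.card : ℝ) ≤ C * (N : ℝ) ^ (1 - c) := by
  set k := f.natDegree with hk
  obtain ⟨δ, γ, C, K, hδ, hγ, hC, hK, hlow⟩ := wtrans_lower f hk.symm hk1 hlead g hW
  obtain ⟨m₀, hm₀⟩ := Odd.exists_threshold hk1 hlead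
  set n₀ := m₀ + 1
  have hn₀ : ∀ n : ℕ, n₀ ≤ n → 1 ≤ f.eval (n : ℤ) := fun n hn => hm₀ n (by omega)
  set W : ℝ := (1 - (2 : ℝ) ^ (-δ)) / 2 with hW'
  have hW0 : 0 < W :=
    div_pos (sub_pos.2 (Real.rpow_lt_one_of_one_lt_of_neg one_lt_two (by linarith))) two_pos
  obtain ⟨u₀, hu₀⟩ : ∃ u₀ : ℕ, ∀ u : ℕ, u₀ ≤ u → C * (2 : ℝ) ^ (-(γ * u)) ≤ W := by
    have h1 : Filter.Tendsto (fun u : ℕ => C * ((2 : ℝ) ^ (-γ)) ^ u) Filter.atTop (nhds 0) := by
      simpa using (tendsto_pow_atTop_nhds_zero_of_lt_one (by positivity)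
        (Real.rpow_lt_one_of_one_lt_of_neg one_lt_two (by linarith : -γ < 0))).const_mul C
    obtain ⟨u₀, hu₀⟩ := Filter.eventually_atTop.1 (h1.eventually (ge_mem_nhds hW0))
    refine ⟨u₀, fun u hu => ?_⟩
    have := hu₀ u hu
    rwa [← Real.rpow_natCast, ← Real.rpow_mul two_pos.le, neg_mul] at this
  set Hs : ℕ := ∑ i ∈ range (k + 1), (f.coeff i).natAbs with hHs
  set H : ℕ := (Hs + 1) * 4 ^ k with hH
  have hH0 : 0 < H := Nat.mul_pos (Nat.succ_pos _) (pow_pos (by norm_num) k)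
  set L : ℕ := K * k with hL
  have hL0 : 0 < L := Nat.mul_pos (by omega) hk1
  set c : ℝ := γ / L with hc
  have hc0 : 0 < c := div_pos hγ (by exact_mod_cast hL0)
  set N₀ : ℕ := H * 2 ^ (L * (n₀ + u₀ + 1)) with hN₀
  set C₁ : ℝ := 2 * C / W * ((H : ℝ) * 2 ^ L) ^ c + (N₀ : ℝ) ^ c with hC₁
  refine ⟨n₀, c, C₁, hc0, Nat.le_add_left 1 m₀, hn₀, fun N A hA hav => ?_⟩
  have hcard : (A.card : ℝ) ≤ N := by
    have := card_le_card hA
    simp at this
    exact_mod_cast this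
  rcases Nat.eq_zero_or_pos N with rfl | hN
  · have h0 : (A.card : ℝ) = 0 := le_antisymm (by simpa using hcard) (Nat.cast_nonneg _)
    rw [h0]; positivity
  have hNR : (0 : ℝ) < N := by exact_mod_cast hN
  rcases lt_or_ge N N₀ with hlt | hge
  · refine hcard.trans ?_
    calc (N : ℝ) = (N : ℝ) ^ c * (N : ℝ) ^ (1 - c) := by
          rw [← Real.rpow_add hNR, add_sub_cancel, Real.rpow_one]
      _ ≤ C₁ * (N : ℝ) ^ (1 - c) := by
          refine mul_le_mul_of_nonneg_right ?_ (by positivity)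
          exact (Real.rpow_le_rpow hNR.le (Nat.cast_le.2 hlt.le) hc0.le).trans
            (le_add_of_nonneg_left (by positivity))
  set x := Nat.log 2 (N / H) with hx
  set u := x / L with hu
  have hNH : 2 ^ (L * (n₀ + u₀ + 1)) ≤ N / H :=
    (Nat.le_div_iff_mul_le hH0).2 (by rw [mul_comm]; exact hge)
  have hx1 : L * (n₀ + u₀ + 1) ≤ x := Nat.le_log_of_pow_le one_lt_two hNH
  have hu1 : n₀ + u₀ + 1 ≤ u := (Nat.le_div_iff_mul_le hL0).2 (by rwa [mul_comm])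
  have hNH0 : N / H ≠ 0 := by have := Nat.one_le_two_pow (n := L * (n₀ + u₀ + 1)); omega
  have hlow2 : H * 2 ^ (L * u) ≤ N := by
    have h1 : 2 ^ (L * u) ≤ N / H := (Nat.pow_le_pow_right two_pos (Nat.mul_div_le x L)).trans
      (Nat.pow_log_le_self 2 hNH0)
    exact (Nat.mul_le_mul_left _ h1).trans (Nat.mul_div_le _ _)
  have hup : N < H * 2 ^ (L * u + L) := by
    have h1 : N / H < 2 ^ (x + 1) := Nat.lt_pow_succ_log_self one_lt_two _
    have h2 : 2 ^ (x + 1) ≤ 2 ^ (L * u + L) := by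
      refine Nat.pow_le_pow_right two_pos ?_
      have := Nat.lt_mul_div_succ x hL0
      rw [← hu, mul_add, mul_one] at this
      omega
    rw [mul_comm]
    exact (Nat.div_lt_iff_lt_mul hH0).1 (h1.trans_le h2)
  have hval : ∀ n : ℕ, n ≤ 2 ^ (K * u + 2) → f.eval (n : ℤ) ≤ N := by
    intro n hn
    have hP1 : 1 ≤ 2 ^ (K * u + 2) := Nat.one_le_two_pow
    have h2 : (f.eval (n : ℤ)).natAbs ≤ Hs * (2 ^ (K * u + 2)) ^ k := by
      rw [eval_eq_sum_range, hHs, sum_mul, ← hk]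
      refine (Int.natAbs_sum_le _ _).trans (sum_le_sum fun i hi => ?_)
      rw [Int.natAbs_mul, Int.natAbs_pow, Int.natAbs_natCast]
      exact Nat.mul_le_mul_left _ ((Nat.pow_le_pow_left hn i).trans
        (Nat.pow_le_pow_right hP1 (Nat.lt_succ_iff.1 (mem_range.1 hi))))
    have h3 : (f.eval (n : ℤ)).natAbs ≤ N := by
      refine h2.trans (le_trans ?_ hlow2)
      rw [pow_add, mul_pow, ← pow_mul, hH, hL, show K * u * k = K * k * u by ring,
        show ((2 : ℕ) ^ 2) ^ k = 4 ^ k by norm_num]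
      calc Hs * (2 ^ (K * k * u) * 4 ^ k) ≤ (Hs + 1) * (2 ^ (K * k * u) * 4 ^ k) :=
            Nat.mul_le_mul_right _ (Nat.le_succ _)
        _ = _ := by ring
    omega
  have hn₀u : n₀ ≤ 2 ^ u := le_trans (by omega) (Nat.lt_two_pow_self (n := u)).le
  obtain ⟨hlowθ, hlow0⟩ := hlow u (by omega)
  have hb := wlevel_bound f g (δ := δ) (K := K) (u := u) hK hA hn₀u hn₀ hval hav
    (ε := C * (2 : ℝ) ^ (-(γ * u))) (by positivity) hlowθ
  have hT0 : W ≤ wtrans f g δ K u 0 := by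
    have := hu₀ u (by omega)
    rw [hW'] at this ⊢
    linarith
  have hkey : (A.card : ℝ) ≤ 2 * C / W * (2 : ℝ) ^ (-(γ * u)) * N := by
    have h1 := (mul_le_mul_of_nonneg_right hT0 (Nat.cast_nonneg _)).trans hb
    calc (A.card : ℝ) ≤ 2 * (C * (2 : ℝ) ^ (-(γ * u))) * N / W :=
          (le_div_iff₀ hW0).2 (by linarith)
      _ = _ := by ring
  have hpow : (2 : ℝ) ^ (-(γ * u)) * (N : ℝ) ^ c ≤ ((H : ℝ) * 2 ^ L) ^ c := by
    have h1 : (N : ℝ) ≤ ((H : ℝ) * 2 ^ L) * (2 : ℝ) ^ (L * u) := by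
      have : (N : ℝ) ≤ ((H * 2 ^ (L * u + L) : ℕ) : ℝ) := Nat.cast_le.2 hup.le
      refine this.trans (le_of_eq ?_)
      push_cast
      rw [pow_add]; ring
    calc (2 : ℝ) ^ (-(γ * u)) * (N : ℝ) ^ c
        ≤ (2 : ℝ) ^ (-(γ * u)) * (((H : ℝ) * 2 ^ L) * (2 : ℝ) ^ (L * u)) ^ c :=
          mul_le_mul_of_nonneg_left (Real.rpow_le_rpow hNR.le h1 hc0.le) (by positivity)
      _ = _ := by
          have hLc : ((L * u : ℕ) : ℝ) * c = γ * u := by
            have : (L : ℝ) ≠ 0 := by exact_mod_cast hL0.ne'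
            rw [hc]; push_cast; field_simp
          rw [Real.mul_rpow (by positivity) (by positivity), ← Real.rpow_natCast 2 (L * u),
            ← Real.rpow_mul two_pos.le, hLc, mul_left_comm, ← Real.rpow_add two_pos,
            neg_add_cancel, Real.rpow_zero, mul_one]
  rw [Real.rpow_sub hNR, Real.rpow_one]
  have hNc : (0 : ℝ) < (N : ℝ) ^ c := Real.rpow_pos_of_pos hNR _
  calc (A.card : ℝ) ≤ 2 * C / W * (2 : ℝ) ^ (-(γ * u)) * N := hkey
    _ = 2 * C / W * ((2 : ℝ) ^ (-(γ * u)) * (N : ℝ) ^ c) * (N / (N : ℝ) ^ c) := by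
        field_simp
    _ ≤ C₁ * (N / (N : ℝ) ^ c) := by
        refine mul_le_mul_of_nonneg_right ?_ (by positivity)
        exact (mul_le_mul_of_nonneg_left hpow (by positivity)).trans
          (le_add_of_nonneg_right (by positivity))

/-- Power saving from simple roots and symmetric weights. -/
theorem local_saving (h : ℤ[X]) (hk : 1 ≤ h.natDegree) (hlead : 0 < h.leadingCoeff)
    (hroot : SimpleRoots h) (hsym : HasSymWeights h) :
    ∃ c C : ℝ, 0 < c ∧ ∀ (N : ℕ) (A : Finset ℕ), A ⊆ Icc 1 N →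
      (∀ a ∈ A, ∀ b ∈ A, ∀ n : ℕ, 1 ≤ n → h.eval (n : ℤ) ≠ 0 → (a : ℤ) - b ≠ h.eval (n : ℤ)) →
      (A.card : ℝ) ≤ C * (N : ℝ) ^ (1 - c) := by
  obtain ⟨W, c₀, g, C₀, κ₀, hW1, hwts⟩ := exists_weights h hk hroot hsym
  set f := h.comp (Polynomial.C (c₀ : ℤ) + Polynomial.C (W : ℤ) * X) with hf
  have hlin : (Polynomial.C (c₀ : ℤ) + Polynomial.C (W : ℤ) * X).natDegree = 1 := by
    rw [add_comm]; exact natDegree_linear (by exact_mod_cast (by omega : W ≠ 0))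
  have hfd : 1 ≤ f.natDegree := by rw [hf, natDegree_comp, hlin, mul_one]; exact hk
  have hfl : 0 < f.leadingCoeff := by
    rw [hf, leadingCoeff_comp (by rw [hlin]; exact one_ne_zero)]
    refine mul_pos hlead (pow_pos ?_ _)
    rw [add_comm, leadingCoeff_linear (by exact_mod_cast (by omega : W ≠ 0))]
    exact_mod_cast hW1
  obtain ⟨n₀, c, C, hc, hn1, hpos, hC⟩ := weights_saving f hfd hfl g hwts
  refine ⟨c, C, hc, fun N A hA hav => hC N A hA fun a ha b hb n hn => ?_⟩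
  have hev : f.eval (n : ℤ) = h.eval (((c₀ + W * n : ℕ)) : ℤ) := by
    rw [hf, eval_comp]
    simp only [eval_add, eval_mul, eval_C, eval_X]
    push_cast
    rfl
  have h1 := hpos n hn
  rw [hev] at h1 ⊢
  exact hav a ha b hb _ (le_add_of_nonneg_of_le (Nat.zero_le _)
    (Nat.mul_pos (by omega) (by omega))) (by omega)

end

end Vale.Agent.P042.Loc
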